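import Vale.Agent.P371.Gamma.Defs

/-!
P371, all exponents `1/2 < γ < 3/2`: assembly of the modules.
-/

open Matrix MeasureTheory Set
open scoped Matrix.Norms.L2Operator ComplexOrder

namespace Vale.Agent.P371.Gamma

/-- The modules give the sharp constant. -/
theorem sharp_of (hK : ConstStmt) (hC : CalibStmt) (hS : ShootStmt) (hT : TrialStmt)
    (hD : DensityStmt) (hA : SolitonStmt) {γ : ℝ} (h1 : 1 / 2 < γ) (h2 : γ < 3 / 2) {m : ℕ}
    (hm : 1 ≤ m) :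
    IsGreatest
      {r : ℝ | ∃ (N : ℕ) (W : ℝ → Matrix (Fin m) (Fin m) ℂ)
          (u u' : Fin N → ℝ → EuclideanSpace ℂ (Fin m)),
        IsPotential (γ + 1 / 2) W ∧ 0 < ∫ x, trPow (γ + 1 / 2) W x ∧ IsFamily u u' ∧
        IsFormDiag W u u' ∧
        r = (∑ i, max (negEnergy W (u i) (u' i)) 0 ^ γ) / ∫ x, trPow (γ + 1 / 2) W x}
      (kellerConst γ) := by
  rw [← (hK γ h1).1]
  refine ⟨?_, ?_⟩
  · obtain ⟨W, u, u', hW, hpos, hu, heq⟩ := hA γ h1 h2 m hm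
    refine ⟨1, W, u, u', hW, hpos, hu, fun i j h => absurd (Subsingleton.elim i j) h, ?_⟩
    rw [Fin.sum_univ_one, heq, mul_div_cancel_right₀ _ hpos.ne']
  · rintro r ⟨N, W, u, u', hW, hpos, hu, hd, rfl⟩
    rw [div_le_iff₀ hpos]
    exact (hD γ h1 h2 m (hT hC hS γ h1 h2 m) W hW).1 N u u' hu hd

end Vale.Agent.P371.Gamma
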