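import Vale.Agent.P371.Gamma.Calib.Scalar
import Vale.Agent.P371.Gamma.Calib.Algebra
import Vale.Agent.P371.Gamma.Calib.Basic

/-!
P371, module Calib: the sharp inequality for full-kernel potentials.
-/

open Matrix MeasureTheory Set Filter
open scoped Topology Matrix.Norms.L2Operator ComplexOrder

namespace Vale.Agent.P371.Gamma.Calib

variable {N : ℕ} {a b : ℝ} {K : Mat N} {V G : ℝ → Mat N}

lemma psiS_nonneg {t k : ℝ} (hk : 0 ≤ k) : 0 ≤ psiS t k := by
  rw [psiS, sub_nonneg]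
  have h := Real.le_tan (Real.arctan_nonneg.2 (div_nonneg hk (Real.sqrt_nonneg t)))
    (Real.arctan_lt_pi_div_two _)
  rwa [Real.tan_arctan] at h

/-- `tr (K² - G(x)²)`. -/
noncomputable def a0F (K : Mat N) (G : ℝ → Mat N) (x : ℝ) : ℝ :=
  (K * K - G x * G x).trace.re

/-- The excess `e` at the point `q = (x, t)`. -/
noncomputable def eF (Zf : Mat N → Mat N → Mat N) (K : Mat N) (G : ℝ → Mat N) (q : ℝ × ℝ) : ℝ :=
  N * √q.2 + a0F K G q.1 / (2 * √q.2) - (Zf (G q.1) (K * K + (q.2 : ℂ) • 1)).trace.im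

/-- `t e' + γ e` at the point `q = (x, t)`. -/
noncomputable def derF (γ : ℝ) (Zf Xf : Mat N → Mat N → Mat N) (K : Mat N) (G : ℝ → Mat N)
    (q : ℝ × ℝ) : ℝ :=
  q.2 * ((N : ℝ) / (2 * √q.2) - (Xf (G q.1) (K * K + (q.2 : ℂ) • 1)).trace.re
    - a0F K G q.1 / (4 * q.2 * √q.2)) + γ * eF Zf K G q

/-- The excess of the potential. -/
noncomputable def evF (γ : ℝ) (V : ℝ → Mat N) (q : ℝ × ℝ) : ℝ :=
  ((γ - 1 / 2) / (γ + 1 / 2) * (V q.1).trace.re + 2 * N * q.2) / (2 * √q.2)
    - (cfc Real.sqrt ((((γ - 1 / 2) / (γ + 1 / 2) : ℝ) : ℂ) • V q.1 + (q.2 : ℂ) • 1)).trace.re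

/-- The bound at the point `q = (x, t)`. -/
noncomputable def rhsF (γ : ℝ) (Zf Xf : Mat N → Mat N → Mat N) (K : Mat N) (V G : ℝ → Mat N)
    (q : ℝ × ℝ) : ℝ :=
  (γ + 1 / 2) / (γ - 1 / 2) * evF γ V q - 1 / (γ - 1 / 2) * derF γ Zf Xf K G q

variable {γ : ℝ} {Zf Xf : Mat N → Mat N → Mat N} {t₀ T : ℝ}

lemma flip_continuousOn (hf : IsFlip a b K V G) : ContinuousOn G (Icc a b) :=
  fun x hx => (hf.deriv x hx).continuousWithinAt

lemma a0F_continuousOn (hf : IsFlip a b K V G) : ContinuousOn (a0F K G) (Icc a b) :=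
  trRe.continuous.comp_continuousOn
    (continuousOn_const.sub ((flip_continuousOn hf).mul (flip_continuousOn hf)))

lemma window_continuousOn (h1 : 1 / 2 < γ) (hV : ∀ x ∈ Icc a b, (V x).PosSemidef)
    (hVc : ContinuousOn V (Icc a b)) (hf : IsFlip a b K V G)
    (hZc : ContinuousOn (fun q : Mat N × Mat N => Zf q.1 q.2) {q | PencilPos q.1 q.2})
    (hXc : ContinuousOn (fun q : Mat N × Mat N => Xf q.1 q.2) {q | PencilPos q.1 q.2})
    (h0 : 0 < t₀) :
    ContinuousOn (fun q : ℝ × ℝ => Xf (G q.1) (K * K + (q.2 : ℂ) • 1)) (Icc a b ×ˢ Icc t₀ T) ∧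
    ContinuousOn (derF γ Zf Xf K G) (Icc a b ×ˢ Icc t₀ T) ∧
    ContinuousOn (evF γ V) (Icc a b ×ˢ Icc t₀ T) ∧
    ContinuousOn (rhsF γ Zf Xf K V G) (Icc a b ×ˢ Icc t₀ T) := by
  have hP : ∀ t : ℝ, 0 < t → ∀ x ∈ Icc a b, PencilPos (G x) (K * K + (t : ℂ) • 1) := fun t ht =>
    pencilPos_of_flip hV hf ht
  have hGc := flip_continuousOn hf
  have ha0c := a0F_continuousOn hf
  have hs : 0 < γ - 1 / 2 := by linarith
  have hc0 : 0 ≤ (γ - 1 / 2) / (γ + 1 / 2) := div_nonneg (by linarith) (by linarith)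
  set Zq : ℝ × ℝ → Mat N := fun q => Zf (G q.1) (K * K + (q.2 : ℂ) • 1)
  set Xq : ℝ × ℝ → Mat N := fun q => Xf (G q.1) (K * K + (q.2 : ℂ) • 1)
  set S := Icc a b ×ˢ Icc t₀ T
  have hScpt : IsCompact S := isCompact_Icc.prod isCompact_Icc
  have hpos : ∀ t ∈ Icc t₀ T, 0 < t := fun t ht => h0.trans_le ht.1
  have h1S : MapsTo Prod.fst S (Icc a b) := fun q hq => hq.1
  have hsq : ∀ q ∈ S, √q.2 ≠ 0 := fun q hq => (Real.sqrt_pos.2 (hpos _ hq.2)).ne'
  have hQ : ContinuousOn (fun q : ℝ × ℝ => (G q.1, K * K + (q.2 : ℂ) • (1 : Mat N))) S :=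
    (hGc.comp continuousOn_fst h1S).prodMk (by fun_prop)
  have hmaps : MapsTo (fun q : ℝ × ℝ => (G q.1, K * K + (q.2 : ℂ) • (1 : Mat N))) S
      {q | PencilPos q.1 q.2} := fun q hq => hP _ (hpos _ hq.2) _ hq.1
  have hZs : ContinuousOn Zq S := hZc.comp hQ hmaps
  have hXs : ContinuousOn Xq S := hXc.comp hQ hmaps
  have htrZ : ContinuousOn (fun q => (Zq q).trace.im) S :=
    Complex.continuous_im.comp_continuousOn (continuous_id.matrix_trace.comp_continuousOn hZs)
  have htrX : ContinuousOn (fun q => (Xq q).trace.re) S := trRe.continuous.comp_continuousOn hXs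
  have ha0s : ContinuousOn (fun q : ℝ × ℝ => a0F K G q.1) S := ha0c.comp continuousOn_fst h1S
  have hes : ContinuousOn (eF Zf K G) S :=
    ((by fun_prop : ContinuousOn (fun q : ℝ × ℝ => (N : ℝ) * √q.2) S).add
      (ha0s.div (by fun_prop) fun q hq => mul_ne_zero two_ne_zero (hsq q hq))).sub htrZ
  have hDs : ContinuousOn (derF γ Zf Xf K G) S :=
    (continuousOn_snd.mul (((continuousOn_const.div (by fun_prop)
      fun q hq => mul_ne_zero two_ne_zero (hsq q hq)).sub htrX).sub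
      (ha0s.div (by fun_prop) fun q hq => mul_ne_zero
        (mul_ne_zero four_ne_zero (hpos _ hq.2).ne') (hsq q hq)))).add (hes.const_smul γ)
  have hVs : ContinuousOn (fun q : ℝ × ℝ => V q.1) S := hVc.comp continuousOn_fst h1S
  have hevs : ContinuousOn (evF γ V) S :=
    (((continuousOn_const.mul (trRe.continuous.comp_continuousOn hVs)).add (by fun_prop)).div
      (by fun_prop) fun q hq => mul_ne_zero two_ne_zero (hsq q hq)).sub
    (continuousOn_trace_cfc hScpt ((hVs.const_smul (((γ - 1 / 2) / (γ + 1 / 2) : ℝ) : ℂ)).add (by fun_prop))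
      (fun q hq => ((hV _ hq.1).1.smul (Complex.conj_ofReal _)).add
        (by simp [IsHermitian, conjTranspose_smul])) Real.continuous_sqrt)
  have hRs : ContinuousOn (rhsF γ Zf Xf K V G) S :=
    (continuousOn_const.mul hevs).sub (continuousOn_const.mul hDs)
  exact ⟨hXs, hDs, hevs, hRs⟩

lemma phase_le (h1 : 1 / 2 < γ) (hab : a < b) (hV : ∀ x ∈ Icc a b, (V x).PosSemidef)
    (hVc : ContinuousOn V (Icc a b)) (hf : IsFlip a b K V G)
    (hsol : ∀ G A, PencilPos G A → IsSolvent G A (Zf G A) (Xf G A))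
    (hphase : ∀ (a b t : ℝ) (K : Mat N) (hK : K.IsHermitian) (G G' : ℝ → Mat N),
      a < b → 0 < t → K.PosDef → ContinuousOn G' (Icc a b) →
      (∀ x ∈ Icc a b, HasDerivWithinAt G (G' x) (Icc a b) x) →
      G a = K → G b = -K →
      (∀ x ∈ Icc a b, PencilPos (G x) (K * K + (t : ℂ) • 1)) →
      ∫ x in a..b, (Xf (G x) (K * K + (t : ℂ) • 1) * G' x).trace.re
        = -∑ i, Real.arctan (hK.eigenvalues i / Real.sqrt t))
    {t : ℝ} (ht0 : 0 < t)
    (hXt : ContinuousOn (fun x => Xf (G x) (K * K + (t : ℂ) • 1)) (Icc a b))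
    (hRt : ContinuousOn (fun x => rhsF γ Zf Xf K V G (x, t)) (Icc a b)) :
    ∑ i, psiS t (hf.posDef.1.eigenvalues i) ≤ ∫ x in a..b, rhsF γ Zf Xf K V G (x, t) := by
  have hP := pencilPos_of_flip hV hf ht0
  have hGc := flip_continuousOn hf
  have hc0 : 0 ≤ (γ - 1 / 2) / (γ + 1 / 2) := div_nonneg (by linarith) (by linarith)
  set dG : ℝ → Mat N := fun x => K * K - G x * G x - V x
  have hdGc : ContinuousOn dG (Icc a b) := (continuousOn_const.sub (hGc.mul hGc)).sub hVc
  have hd : ∫ x in a..b, (dG x).trace.re = -2 * K.trace.re := by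
    have h := intervalIntegral.integral_eq_sub_of_hasDerivAt_of_le (f := fun x => trRe (G x))
      (f' := fun x => trRe (dG x)) hab.le (trRe.continuous.comp_continuousOn hGc)
      (fun x hx => (trRe.hasFDerivAt.comp_hasDerivWithinAt x
        (hf.deriv x (Ioo_subset_Icc_self hx))).hasDerivAt (Icc_mem_nhds hx.1 hx.2))
      ((trRe.continuous.comp_continuousOn hdGc).intervalIntegrable_of_Icc hab.le)
    simp only [hf.left, hf.right, trRe_apply, trace_neg, Complex.neg_re] at h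
    rw [h]
    ring
  have hph := hphase a b t K hf.posDef.1 G dG hab ht0 hf.posDef hdGc hf.deriv hf.left hf.right
    hP
  have hg : ContinuousOn (fun x => (Xf (G x) (K * K + (t : ℂ) • 1) * dG x).trace.re) (Icc a b) :=
    trRe.continuous.comp_continuousOn (hXt.mul hdGc)
  have hdi : IntervalIntegrable (fun x => (dG x).trace.re) volume a b :=
    (trRe.continuous.comp_continuousOn hdGc).intervalIntegrable_of_Icc hab.le
  have hgi := hg.intervalIntegrable_of_Icc (μ := volume) hab.le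
  calc ∑ i, psiS t (hf.posDef.1.eigenvalues i)
      = ∫ x in a..b, -((dG x).trace.re / (2 * √t) - (Xf (G x) (K * K + (t : ℂ) • 1) * dG x).trace.re) := by
        rw [intervalIntegral.integral_neg, intervalIntegral.integral_sub (hdi.div_const _) hgi,
          intervalIntegral.integral_div, hd, hph, hf.posDef.1.trace_eq_sum_eigenvalues,
          Complex.re_sum]
        simp [psiS, Finset.sum_sub_distrib, ← Finset.sum_div]
        ring
    _ ≤ ∫ x in a..b, rhsF γ Zf Xf K V G (x, t) := by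
        refine intervalIntegral.integral_mono_on hab.le ((hdi.div_const _).sub hgi).neg
          (hRt.intervalIntegrable_of_Icc hab.le) fun x hx => ?_
        obtain ⟨hU, hU2, -⟩ := sqrt_shift (hV x hx) hc0 ht0.le
        exact point_le ht0 h1 (hsol _ _ (hP x hx)) hU hU2

lemma time_le (h1 : 1 / 2 < γ) (h2 : γ < 3 / 2) (hV : ∀ x ∈ Icc a b, (V x).PosSemidef)
    (hf : IsFlip a b K V G)
    (hsol : ∀ G A, PencilPos G A → IsSolvent G A (Zf G A) (Xf G A))
    (hder : ∀ (G A : Mat N) (t : ℝ), PencilPos G (A + (t : ℂ) • 1) →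
      HasDerivAt (fun u : ℝ => (Zf G (A + (u : ℂ) • 1)).trace.im)
        (Xf G (A + (t : ℂ) • 1)).trace.re t)
    {x : ℝ} (hx : x ∈ Icc a b) (h0 : 0 < t₀) (hT : t₀ ≤ T)
    (hDt : ContinuousOn (fun t => derF γ Zf Xf K G (x, t)) (Icc t₀ T))
    (hevt : ContinuousOn (fun t => evF γ V (x, t)) (Icc t₀ T)) :
    ∫ t in t₀..T, t ^ (γ - 1) * rhsF γ Zf Xf K V G (x, t) ≤
      (γ + 1 / 2) / (γ - 1 / 2) * ((hTot γ / (γ + 1 / 2)) *
          (((γ - 1 / 2) / (γ + 1 / 2)) ^ (γ + 1 / 2) * trPow (γ + 1 / 2) V x))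
        + 1 / (γ - 1 / 2) * (t₀ ^ γ * (N * √t₀ + a0F K G x / (2 * √t₀))) := by
  have hP : ∀ t : ℝ, 0 < t → ∀ x ∈ Icc a b, PencilPos (G x) (K * K + (t : ℂ) • 1) := fun t ht =>
    pencilPos_of_flip hV hf ht
  set c := (γ - 1 / 2) / (γ + 1 / 2) with hc
  have hc0 : 0 ≤ c := div_nonneg (by linarith) (by linarith)
  have hs : 0 < γ - 1 / 2 := by linarith
  have hp : (0 : ℝ) < γ + 1 / 2 := by linarith
  have hpos : ∀ t ∈ Icc t₀ T, 0 < t := fun t ht => h0.trans_le ht.1
  set lam := (hV x hx).1.eigenvalues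
  have hlam : ∀ i, 0 ≤ c * lam i := fun i => mul_nonneg hc0 ((hV x hx).eigenvalues_nonneg i)
  have hDi : IntervalIntegrable (fun t => t ^ (γ - 1) * derF γ Zf Xf K G (x, t)) volume t₀ T :=
    ((continuousOn_w γ h0).mul hDt).intervalIntegrable_of_Icc hT
  have hei : IntervalIntegrable (fun t => t ^ (γ - 1) * evF γ V (x, t)) volume t₀ T :=
    ((continuousOn_w γ h0).mul hevt).intervalIntegrable_of_Icc hT
  have hev_le : ∫ t in t₀..T, t ^ (γ - 1) * evF γ V (x, t) ≤
      (hTot γ / (γ + 1 / 2)) * (c ^ (γ + 1 / 2) * trPow (γ + 1 / 2) V x) := by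
    have heq : EqOn (fun t => t ^ (γ - 1) * evF γ V (x, t))
        (fun t => ∑ i, t ^ (γ - 1) * eS t (c * lam i)) (uIcc t₀ T) := by
      intro t ht
      rw [uIcc_of_le hT] at ht
      have hr := Real.sqrt_pos.2 (hpos t ht)
      have e1 : ∀ i, eS t (c * lam i)
          = (c * lam i + 2 * t) / (2 * √t) - √(c * lam i + t) := fun i => by
        have h3 := Real.sq_sqrt (add_nonneg (hpos t ht).le (hlam i))
        have h4 := Real.sq_sqrt (hpos t ht).le
        rw [eS, add_comm (c * lam i) t]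
        field_simp
        linear_combination h3 + h4
      simp only [evF, ← hc, (sqrt_shift (hV x hx) hc0 (hpos t ht).le).2.2, e1, Finset.sum_sub_distrib,
        ← Finset.mul_sum, ← Finset.sum_div, Finset.sum_add_distrib,
        (hV x hx).1.trace_eq_sum_eigenvalues, Complex.re_sum]
      congr 1
      simp [lam]
      ring
    rw [intervalIntegral.integral_congr heq, intervalIntegral.integral_finsetSum
      (f := fun i t => t ^ (γ - 1) * eS t (c * lam i)) fun i _ =>
      ((continuousOn_w γ h0).mul (continuousOn_eS _ h0)).intervalIntegrable_of_Icc hT]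
    refine (Finset.sum_le_sum fun i _ => integral_eS_le h1 h2 h0 hT (hlam i)).trans_eq ?_
    rw [trPow, trace_cfc_re (hV x hx).1, Finset.mul_sum, Finset.mul_sum]
    refine Finset.sum_congr rfl fun i _ => ?_
    rw [Real.mul_rpow hc0 ((hV x hx).eigenvalues_nonneg i)]
    ring
  have hD_ge : -(t₀ ^ γ * (N * √t₀ + a0F K G x / (2 * √t₀))) ≤
      ∫ t in t₀..T, t ^ (γ - 1) * derF γ Zf Xf K G (x, t) := by
    have hd : ∀ t ∈ uIcc t₀ T,
        HasDerivAt (fun u => u ^ γ * eF Zf K G (x, u)) (t ^ (γ - 1) * derF γ Zf Xf K G (x, t)) t := by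
      intro t ht
      rw [uIcc_of_le hT] at ht
      have ht0 := hpos t ht
      have hr := Real.sqrt_pos.2 ht0
      have d1 := Real.hasDerivAt_sqrt ht0.ne'
      have d2 := ((d1.const_mul (N : ℝ)).add
        ((hasDerivAt_const t (a0F K G x)).div (d1.const_mul 2) (by positivity))).sub
        (hder (G x) (K * K) t (hP t ht0 x hx))
      refine ((Real.hasDerivAt_rpow_const (p := γ) (Or.inl ht0.ne')).mul d2).congr_deriv ?_
      have hpw : t ^ γ = t ^ (γ - 1) * t := by rw [← Real.rpow_add_one ht0.ne', sub_add_cancel]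
      have h4 := Real.sq_sqrt ht0.le
      simp only [derF, eF, Pi.add_apply, Pi.sub_apply, Pi.div_apply, hpw]
      set r := √t
      rw [← h4]
      field_simp
      ring
    rw [intervalIntegral.integral_eq_sub_of_hasDerivAt hd hDi]
    have hT0 : 0 < T := h0.trans_le hT
    have hexT : 0 ≤ eF Zf K G (x, T) := by
      have h := excess_nonneg (hsol _ _ (hP T hT0 x hx)) √T
      have hr := Real.sqrt_pos.2 hT0
      have h4 := Real.sq_sqrt hT0.le
      have : 2 * √T * eF Zf K G (x, T) = (K * K + (T : ℂ) • 1 - G x * G x).trace.re + N * √T ^ 2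
          - 2 * √T * (Zf (G x) (K * K + (T : ℂ) • 1)).trace.im := by
        simp [eF, a0F, trace_sub, trace_add, trace_smul]
        field_simp
        linear_combination (N : ℝ) * h4
      have h5 : 0 ≤ 2 * √T * eF Zf K G (x, T) := this ▸ h
      exact (mul_nonneg_iff_of_pos_left (by positivity)).1 h5
    have hex0 : eF Zf K G (x, t₀) ≤ N * √t₀ + a0F K G x / (2 * √t₀) := by
      have := eta_nonneg (hsol _ _ (hP t₀ h0 x hx))
      simp only [eF]
      linarith
    have := mul_le_mul_of_nonneg_left hex0 (Real.rpow_nonneg h0.le γ)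
    have := mul_nonneg (Real.rpow_nonneg hT0.le γ) hexT
    linarith
  have hsplit : (fun t => t ^ (γ - 1) * rhsF γ Zf Xf K V G (x, t)) = fun t =>
      (γ + 1 / 2) / (γ - 1 / 2) * (t ^ (γ - 1) * evF γ V (x, t))
        - 1 / (γ - 1 / 2) * (t ^ (γ - 1) * derF γ Zf Xf K G (x, t)) := by
    funext t; simp only [rhsF]; ring
  rw [hsplit, intervalIntegral.integral_sub (hei.const_mul _) (hDi.const_mul _),
    intervalIntegral.integral_const_mul, intervalIntegral.integral_const_mul]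
  have := mul_le_mul_of_nonneg_left hev_le (show 0 ≤ (γ + 1 / 2) / (γ - 1 / 2) by positivity)
  have := mul_le_mul_of_nonneg_left hD_ge (show 0 ≤ 1 / (γ - 1 / 2) by positivity)
  linarith

/-- The calibration on a time window `[t₀, T]`. -/
lemma calib_window (h1 : 1 / 2 < γ) (h2 : γ < 3 / 2) (hS : SolventStmt) (hab : a < b)
    (hV : ∀ x ∈ Icc a b, (V x).PosSemidef) (hVc : ContinuousOn V (Icc a b))
    (hf : IsFlip a b K V G) (h0 : 0 < t₀) (hT : t₀ ≤ T) :
    ∑ i, ∫ t in t₀..T, t ^ (γ - 1) * psiS t (hf.posDef.1.eigenvalues i) ≤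
      (γ + 1 / 2) / (γ - 1 / 2) * ((hTot γ / (γ + 1 / 2)) *
          (((γ - 1 / 2) / (γ + 1 / 2)) ^ (γ + 1 / 2) * ∫ x in a..b, trPow (γ + 1 / 2) V x))
        + 1 / (γ - 1 / 2) * (t₀ ^ γ * ((N : ℝ) * √t₀ * (b - a)
            + (∫ x in a..b, (K * K - G x * G x).trace.re) / (2 * √t₀))) := by
  obtain ⟨Zf, Xf, hsol, -, hZc, hXc, hder, hphase⟩ := hS N
  obtain ⟨hXs, hDs, hevs, hRs⟩ :=
    window_continuousOn (T := T) h1 hV hVc hf hZc hXc h0
  have hScpt : IsCompact (Icc a b ×ˢ Icc t₀ T) := isCompact_Icc.prod isCompact_Icc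
  have hpos : ∀ t ∈ Icc t₀ T, 0 < t := fun t ht => h0.trans_le ht.1
  have hin : ∀ {t}, t ∈ Icc t₀ T → MapsTo (fun x => (x, t)) (Icc a b) (Icc a b ×ˢ Icc t₀ T) :=
    fun ht x hx => ⟨hx, ht⟩
  have hin' : ∀ {x}, x ∈ Icc a b → MapsTo (fun t => (x, t)) (Icc t₀ T) (Icc a b ×ˢ Icc t₀ T) :=
    fun hx t ht => ⟨hx, ht⟩
  have hL : ∀ t ∈ Icc t₀ T, ∑ i, psiS t (hf.posDef.1.eigenvalues i) ≤
      ∫ x in a..b, rhsF γ Zf Xf K V G (x, t) := fun t ht =>
    phase_le h1 hab hV hVc hf hsol hphase (hpos t ht) (hXs.comp (by fun_prop) (hin ht))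
      (hRs.comp (by fun_prop) (hin ht))
  have hX := fun x (hx : x ∈ Icc a b) => time_le h1 h2 hV hf hsol hder hx h0 hT
    (hDs.comp (by fun_prop) (hin' hx)) (hevs.comp (by fun_prop) (hin' hx))
  set R := rhsF γ Zf Xf K V G
  set c := (γ - 1 / 2) / (γ + 1 / 2) with hc
  have hp : (0 : ℝ) < γ + 1 / 2 := by linarith
  have ha0c := a0F_continuousOn hf
  have hψi : ∀ i, IntervalIntegrable
      (fun t => t ^ (γ - 1) * psiS t (hf.posDef.1.eigenvalues i)) volume t₀ T := fun i => by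
    refine ((continuousOn_w γ h0).mul ?_).intervalIntegrable_of_Icc hT
    have hd : ContinuousOn (fun t => hf.posDef.1.eigenvalues i / √t) (Icc t₀ T) :=
      continuousOn_const.div (by fun_prop) fun t ht => (Real.sqrt_pos.2 (hpos t ht)).ne'
    exact hd.sub (Real.continuous_arctan.comp_continuousOn hd)
  have hwR : ContinuousOn (fun q : ℝ × ℝ => q.2 ^ (γ - 1) * R q) (Icc a b ×ˢ Icc t₀ T) :=
    ((continuousOn_w γ h0).comp continuousOn_snd fun q hq => hq.2).mul hRs
  have hswap : ∫ t in t₀..T, ∫ x in a..b, t ^ (γ - 1) * R (x, t)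
      = ∫ x in a..b, ∫ t in t₀..T, t ^ (γ - 1) * R (x, t) := by
    refine (intervalIntegral_intervalIntegral_swap ?_).symm
    rw [uIoc_of_le hab.le, uIoc_of_le hT]
    exact (hwR.integrableOn_compact hScpt).mono_set (prod_mono Ioc_subset_Icc_self Ioc_subset_Icc_self)
  have hI : IntegrableOn (fun q : ℝ × ℝ => q.2 ^ (γ - 1) * R q) (Ioc a b ×ˢ Ioc t₀ T) :=
    (hwR.integrableOn_compact hScpt).mono_set (prod_mono Ioc_subset_Icc_self Ioc_subset_Icc_self)
  rw [IntegrableOn, Measure.volume_eq_prod, ← Measure.prod_restrict] at hI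
  have ht_int : IntervalIntegrable (fun t => ∫ x in a..b, t ^ (γ - 1) * R (x, t)) volume t₀ T := by
    rw [intervalIntegrable_iff_integrableOn_Ioc_of_le hT]
    exact hI.integral_prod_right.congr (Eventually.of_forall fun t =>
      (intervalIntegral.integral_of_le hab.le).symm)
  have hx_int : IntervalIntegrable (fun x => ∫ t in t₀..T, t ^ (γ - 1) * R (x, t)) volume a b := by
    rw [intervalIntegrable_iff_integrableOn_Ioc_of_le hab.le]
    exact hI.integral_prod_left.congr (Eventually.of_forall fun x =>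
      (intervalIntegral.integral_of_le hT).symm)
  have hPc : ContinuousOn (trPow (γ + 1 / 2) V) (Icc a b) :=
    continuousOn_trace_cfc isCompact_Icc hVc (fun x hx => (hV x hx).1)
      (Real.continuous_rpow_const hp.le)
  have hPi := hPc.intervalIntegrable_of_Icc (μ := volume) hab.le
  have ha0i := ha0c.intervalIntegrable_of_Icc (μ := volume) hab.le
  calc ∑ i, ∫ t in t₀..T, t ^ (γ - 1) * psiS t (hf.posDef.1.eigenvalues i)
      = ∫ t in t₀..T, ∑ i, t ^ (γ - 1) * psiS t (hf.posDef.1.eigenvalues i) :=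
        (intervalIntegral.integral_finsetSum fun i _ => hψi i).symm
    _ ≤ ∫ t in t₀..T, ∫ x in a..b, t ^ (γ - 1) * R (x, t) := by
        refine intervalIntegral.integral_mono_on hT ?_ ht_int fun t ht => ?_
        · exact (IntervalIntegrable.sum Finset.univ fun i _ => hψi i).congr
            fun t _ => (Finset.sum_apply _ _ _)
        · rw [← Finset.mul_sum, intervalIntegral.integral_const_mul]
          exact mul_le_mul_of_nonneg_left (hL t ht) (Real.rpow_nonneg (hpos t ht).le _)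
    _ = ∫ x in a..b, ∫ t in t₀..T, t ^ (γ - 1) * R (x, t) := hswap
    _ ≤ ∫ x in a..b, ((γ + 1 / 2) / (γ - 1 / 2) * ((hTot γ / (γ + 1 / 2)) *
          (c ^ (γ + 1 / 2) * trPow (γ + 1 / 2) V x))
        + 1 / (γ - 1 / 2) * (t₀ ^ γ * (N * √t₀ + a0F K G x / (2 * √t₀)))) :=
        intervalIntegral.integral_mono_on hab.le hx_int
          ((((hPi.const_mul _).const_mul _).const_mul _).add
            (((intervalIntegrable_const.add (ha0i.div_const _)).const_mul _).const_mul _)) hX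
    _ = _ := by
        rw [intervalIntegral.integral_add (((hPi.const_mul _).const_mul _).const_mul _)
            (((intervalIntegrable_const.add (ha0i.div_const _)).const_mul _).const_mul _)]
        simp only [intervalIntegral.integral_const_mul]
        rw [intervalIntegral.integral_add intervalIntegrable_const (ha0i.div_const _),
          intervalIntegral.integral_const, intervalIntegral.integral_div, smul_eq_mul]
        simp only [a0F, hc]
        ring

end Vale.Agent.P371.Gamma.Calib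

namespace Vale.Agent.P371.Gamma

open Calib

/-- Module Calib. -/
theorem calib_of (hS : SolventStmt) : CalibStmt := by
  intro γ h1 h2 N a b K V G hab hV hVc hf
  set k := hf.posDef.1.eigenvalues
  have hk : ∀ i, 0 < k i := hf.posDef.eigenvalues_pos
  set m : ℝ := (∑ i, 1 / k i ^ 2 + 1)⁻¹
  set M : ℝ := ∑ i, k i ^ 2 + 1
  have hpos : 0 < ∑ i, 1 / k i ^ 2 + 1 := by positivity
  have hm : ∀ i, m ≤ k i ^ 2 := fun i => by
    have h := Finset.single_le_sum (f := fun j => 1 / k j ^ 2) (fun j _ => by positivity)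
      (Finset.mem_univ i)
    have h2 : 0 < k i ^ 2 := pow_pos (hk i) 2
    rw [inv_le_comm₀ hpos h2, ← one_div]
    linarith
  have hM : ∀ i, k i ^ 2 ≤ M := fun i => by
    have := Finset.single_le_sum (f := fun j => k j ^ 2) (fun j _ => sq_nonneg _)
      (Finset.mem_univ i)
    linarith
  have hm0 : 0 < m := inv_pos.2 hpos
  have hM1 : 1 ≤ M := le_add_of_nonneg_left (Finset.sum_nonneg fun i _ => sq_nonneg _)
  have hm1 : m ≤ 1 := inv_le_one_of_one_le₀
    (le_add_of_nonneg_left (Finset.sum_nonneg fun i _ => by positivity))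
  set I := ∫ x in a..b, trPow (γ + 1 / 2) V x
  set A0 := ∫ x in a..b, (K * K - G x * G x).trace.re
  set s := γ - 1 / 2 with hs
  have hs0 : 0 < s := by rw [hs]; linarith
  have key : ∀ n : ℕ, ∑ i, ∫ t in k i ^ 2 * ((n : ℝ) + 1)⁻¹..k i ^ 2 * (n + 1),
      t ^ (γ - 1) * psiS t (k i) ≤ (γ + 1 / 2) / s * ((hTot γ / (γ + 1 / 2)) *
          ((s / (γ + 1 / 2)) ^ (γ + 1 / 2) * I))
        + (m * ((n : ℝ) + 1)⁻¹) ^ s * ((N * (b - a) * (m * ((n : ℝ) + 1)⁻¹) + A0 / 2) / s) := by
    intro n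
    have hn1 : (1 : ℝ) ≤ n + 1 := by linarith [n.cast_nonneg (α := ℝ)]
    have hn0 : (0 : ℝ) < ((n : ℝ) + 1)⁻¹ := by positivity
    have hni : ((n : ℝ) + 1)⁻¹ ≤ n + 1 := (inv_le_one_of_one_le₀ hn1).trans hn1
    set t₀ := m * ((n : ℝ) + 1)⁻¹
    have ht0 : 0 < t₀ := mul_pos hm0 hn0
    have hT : t₀ ≤ M * (n + 1) :=
      mul_le_mul (hm1.trans hM1) hni hn0.le (zero_le_one.trans hM1)
    refine le_trans (Finset.sum_le_sum fun i _ => ?_)
      ((calib_window h1 h2 hS hab hV hVc hf ht0 hT).trans_eq ?_)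
    · refine intervalIntegral.integral_mono_interval
        (mul_le_mul_of_nonneg_right (hm i) hn0.le)
        (mul_le_mul_of_nonneg_left hni (sq_nonneg _))
        (mul_le_mul_of_nonneg_right (hM i) (by positivity)) ?_ ?_
      · refine (ae_restrict_iff' measurableSet_Ioc).2 (Eventually.of_forall fun t ht => ?_)
        exact mul_nonneg (Real.rpow_nonneg (ht0.trans ht.1).le _) (psiS_nonneg (hk i).le)
      · refine ((continuousOn_w γ ht0).mul ?_).intervalIntegrable_of_Icc hT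
        have hd : ContinuousOn (fun t => k i / √t) (Icc t₀ (M * (n + 1))) :=
          continuousOn_const.div (by fun_prop) fun t ht =>
            (Real.sqrt_pos.2 (ht0.trans_le ht.1)).ne'
        exact hd.sub (Real.continuous_arctan.comp_continuousOn hd)
    · have e : t₀ ^ γ = t₀ ^ s * √t₀ := by
        rw [Real.sqrt_eq_rpow, ← Real.rpow_add ht0, hs, sub_add_cancel]
      have h4 := Real.mul_self_sqrt ht0.le
      have hr := Real.sqrt_pos.2 ht0
      rw [e]
      simp only [hs, I, A0]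
      set r := √t₀
      rw [← h4]
      field_simp
  have h0 : Tendsto (fun n : ℕ => m * ((n : ℝ) + 1)⁻¹) atTop (𝓝 0) := by
    simpa using (tendsto_one_div_add_atTop_nhds_zero_nat (𝕜 := ℝ)).const_mul m
  have hr := ((h0.rpow_const (p := s) (Or.inr hs0.le)).mul
    ((((h0.const_mul ((N : ℝ) * (b - a))).add_const (A0 / 2))).div_const s)).const_add
      ((γ + 1 / 2) / s * ((hTot γ / (γ + 1 / 2)) * ((s / (γ + 1 / 2)) ^ (γ + 1 / 2) * I)))
  rw [Real.zero_rpow hs0.ne', zero_mul, add_zero] at hr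
  have hl := le_of_tendsto_of_tendsto'
    (tendsto_finsetSum Finset.univ fun i _ => tendsto_psiS h1 h2 (hk i)) hr key
  rw [← Finset.sum_mul] at hl
  rw [trace_cfc_re hf.posDef.1]
  have hT := hTot_pos h1 h2
  have hp : (0 : ℝ) < γ + 1 / 2 := by linarith
  have hSI := solInt_pos h1
  rw [← le_div_iff₀ (mul_pos hSI hT)] at hl
  refine hl.trans_eq ?_
  rw [calConst, ← hs, Real.div_rpow hs0.le hp.le,
    show s ^ (γ + 1 / 2) = s ^ s * s by
      rw [← Real.rpow_add_one hs0.ne']; congr 1; rw [hs]; ring]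
  field_simp

end Vale.Agent.P371.Gamma
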