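import Vale.Agent.P371.Gamma.Defs

/-!
P371: the calibration constant is the one-bound-state constant.
-/

open MeasureTheory Set

namespace Vale.Agent.P371.Gamma

private lemma beta_integral_real {a : ℝ} (ha : 0 < a) :
    ∫ x in (0 : ℝ)..1, (x * (1 - x)) ^ (a - 1)
      = Real.Gamma a * Real.Gamma a / Real.Gamma (a + a) := by
  have h := Complex.betaIntegral_eq_Gamma_mul_div (a : ℂ) (a : ℂ) (by simpa) (by simpa)
  have e : Complex.betaIntegral (a : ℂ) (a : ℂ)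
      = ((∫ x in (0 : ℝ)..1, (x * (1 - x)) ^ (a - 1) : ℝ) : ℂ) := by
    rw [Complex.betaIntegral, ← intervalIntegral.integral_ofReal]
    refine intervalIntegral.integral_congr fun x hx => ?_
    rw [uIcc_of_le (by norm_num : (0 : ℝ) ≤ 1)] at hx
    rw [Real.mul_rpow hx.1 (by linarith [hx.2]), Complex.ofReal_mul, Complex.ofReal_cpow hx.1,
      Complex.ofReal_cpow (by linarith [hx.2])]
    push_cast
    ring
  rw [e, ← Complex.ofReal_add, Complex.Gamma_ofReal, Complex.Gamma_ofReal] at h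
  exact_mod_cast h

/-- `∫_{-1}^1 (1 - f²)^{γ - 1/2} df = √π Γ(γ + 1/2) / Γ(γ + 1)`. -/
theorem solInt_eq {γ : ℝ} (h : 1 / 2 < γ) :
    solInt γ = Real.sqrt Real.pi * Real.Gamma (γ + 1 / 2) / Real.Gamma (γ + 1) := by
  have hcv : (∫ x in (0 : ℝ)..1, (1 - (2 * x - 1) ^ 2) ^ (γ - 1 / 2))
      = (2 : ℝ)⁻¹ * solInt γ := by
    have h1 := intervalIntegral.integral_comp_mul_sub
      (fun f : ℝ => (1 - f ^ 2) ^ (γ - 1 / 2)) (a := 0) (b := 1) (two_ne_zero' ℝ) 1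
    rw [h1, solInt, smul_eq_mul]
    norm_num
  have hpt : (∫ x in (0 : ℝ)..1, (1 - (2 * x - 1) ^ 2) ^ (γ - 1 / 2))
      = (4 : ℝ) ^ (γ - 1 / 2) * ∫ x in (0 : ℝ)..1, (x * (1 - x)) ^ (γ + 1 / 2 - 1) := by
    rw [← intervalIntegral.integral_const_mul]
    refine intervalIntegral.integral_congr fun x hx => ?_
    rw [uIcc_of_le (by norm_num : (0 : ℝ) ≤ 1)] at hx
    rw [show 1 - (2 * x - 1) ^ 2 = 4 * (x * (1 - x)) by ring,
      Real.mul_rpow (by norm_num) (mul_nonneg hx.1 (by linarith [hx.2]))]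
    ring_nf
  rw [beta_integral_real (by linarith)] at hpt
  rw [hpt] at hcv
  have hd := Real.Gamma_mul_Gamma_add_half_of_pos (s := γ + 1 / 2) (by linarith)
  rw [show γ + 1 / 2 + 1 / 2 = γ + 1 by ring,
    show 2 * (γ + 1 / 2) = γ + 1 / 2 + (γ + 1 / 2) by ring] at hd
  have hpow : (4 : ℝ) ^ (γ - 1 / 2) * (2 * 2 ^ (1 - (γ + 1 / 2 + (γ + 1 / 2)))) = 1 := by
    rw [show (4 : ℝ) = 2 ^ (2 : ℝ) by norm_num, ← Real.rpow_mul zero_le_two,
      ← Real.rpow_one_add' zero_le_two (by linarith), ← Real.rpow_add two_pos]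
    ring_nf
    exact Real.rpow_zero 2
  have h0 : 0 < Real.Gamma (γ + 1 / 2) := Real.Gamma_pos_of_pos (by linarith)
  have h1 : 0 < Real.Gamma (γ + 1) := Real.Gamma_pos_of_pos (by linarith)
  have h2 : 0 < Real.Gamma (γ + 1 / 2 + (γ + 1 / 2)) := Real.Gamma_pos_of_pos (by linarith)
  generalize Real.Gamma (γ + 1 / 2 + (γ + 1 / 2)) = G2 at *
  generalize Real.Gamma (γ + 1 / 2) = G0 at *
  generalize Real.Gamma (γ + 1) = G1 at *
  generalize (4 : ℝ) ^ (γ - 1 / 2) = c at *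
  generalize (2 : ℝ) ^ (1 - (γ + 1 / 2 + (γ + 1 / 2))) = d at *
  field_simp at hcv
  rw [eq_div_iff h1.ne']
  refine mul_right_cancel₀ (mul_pos h0 h2).ne' ?_
  linear_combination
    (-G1 * G0) * hcv + 2 * c * G0 ^ 2 * hd + G0 ^ 2 * G2 * Real.sqrt Real.pi * hpow

theorem solInt_pos {γ : ℝ} (h : 1 / 2 < γ) : 0 < solInt γ := by
  rw [solInt_eq h]
  exact div_pos (mul_pos (Real.sqrt_pos.2 Real.pi_pos) (Real.Gamma_pos_of_pos (by linarith)))
    (Real.Gamma_pos_of_pos (by linarith))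

theorem const : ConstStmt := by
  intro γ h
  have hs : 0 < γ - 1 / 2 := by linarith
  have hp : 0 < γ + 1 / 2 := by linarith
  have hg1 : 0 < Real.Gamma (γ + 1) := Real.Gamma_pos_of_pos (by linarith)
  have hg0 : 0 < Real.Gamma (γ + 1 / 2) := Real.Gamma_pos_of_pos (by linarith)
  have hg3 : Real.Gamma (γ + 3 / 2) = (γ + 1 / 2) * Real.Gamma (γ + 1 / 2) := by
    rw [← Real.Gamma_add_one hp.ne']
    ring_nf
  have hsq : 0 < Real.sqrt Real.pi := Real.sqrt_pos.2 Real.pi_pos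
  have hrp : 0 < (γ + 1 / 2) ^ (γ - 1 / 2) := Real.rpow_pos_of_pos hp _
  have hpp : (γ + 1 / 2) ^ (γ + 1 / 2) = (γ + 1 / 2) ^ (γ - 1 / 2) * (γ + 1 / 2) := by
    rw [← Real.rpow_add_one hp.ne']
    ring_nf
  refine ⟨?_, ?_⟩
  · rw [calConst, kellerConst, solInt_eq h, hg3, Real.div_rpow hs.le hp.le, hpp]
    field_simp
  · rw [kellerConst, hg3]
    have : 0 < ((γ - 1 / 2) / (γ + 1 / 2)) ^ (γ - 1 / 2) := Real.rpow_pos_of_pos (div_pos hs hp) _
    positivity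

end Vale.Agent.P371.Gamma
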