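import Mathlib
import Vale.Agent.P371.Statement

/-!
P371, all exponents `1/2 < γ < 3/2`: vocabulary and frozen interfaces of the modules.

See `notes/P371_gamma.md` for the proof.
-/

open Matrix MeasureTheory Set
open scoped Matrix.Norms.L2Operator ComplexOrder

namespace Vale.Agent.P371.Gamma

/-- Square complex matrices. -/
abbrev Mat (N : ℕ) := Matrix (Fin N) (Fin N) ℂ

/-- The one-bound-state constant `L^{(1)}_γ = 2 ((γ-1/2)/(γ+1/2))^{γ-1/2} L^{cl}_γ`. -/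
noncomputable def kellerConst (γ : ℝ) : ℝ :=
  2 * ((γ - 1 / 2) / (γ + 1 / 2)) ^ (γ - 1 / 2) *
    (Real.Gamma (γ + 1) / (2 * Real.sqrt Real.pi * Real.Gamma (γ + 3 / 2)))

/-- `∫_{-1}^{1} (1 - f²)^{γ - 1/2} df`. -/
noncomputable def solInt (γ : ℝ) : ℝ := ∫ f in (-1 : ℝ)..1, (1 - f ^ 2) ^ (γ - 1 / 2)

/-- The constant delivered by the calibration. -/
noncomputable def calConst (γ : ℝ) : ℝ :=
  (γ - 1 / 2) ^ (γ - 1 / 2) / ((γ + 1 / 2) ^ (γ + 1 / 2) * solInt γ)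

/-- The calibration constant is the one-bound-state constant (module Const). -/
def ConstStmt : Prop := ∀ γ : ℝ, 1 / 2 < γ → calConst γ = kellerConst γ ∧ 0 < kellerConst γ

/-! ### The pencil `ξ² + 2ξG + A` and its stable solvent -/

/-- The pencil is positive definite at every real `ξ`. -/
def PencilPos {N : ℕ} (G A : Mat N) : Prop :=
  G.IsHermitian ∧ A.IsHermitian ∧ ∀ v : Fin N → ℂ, v ≠ 0 →
    (star v ⬝ᵥ G *ᵥ v).re ^ 2 < (star v ⬝ᵥ A *ᵥ v).re * (star v ⬝ᵥ v).re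

/-- `ξ² + 2ξG + A = (ξ - Z*) (ξ - Z)` with the positive solution `X` of `Z X - X Z* = i`. -/
structure IsSolvent {N : ℕ} (G A Z X : Mat N) : Prop where
  add_star : Z + star Z = -((2 : ℂ) • G)
  star_mul : star Z * Z = A
  lyap : Z * X - X * star Z = Complex.I • 1
  pos : X.PosDef

/-- The solvent and its derivatives (module Solvent). -/
def SolventStmt : Prop :=
  ∀ N : ℕ, ∃ Z X : Mat N → Mat N → Mat N,
    (∀ G A, PencilPos G A → IsSolvent G A (Z G A) (X G A)) ∧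
    (∀ G A Z' X', PencilPos G A → IsSolvent G A Z' X' → Z' = Z G A ∧ X' = X G A) ∧
    ContinuousOn (fun q : Mat N × Mat N => Z q.1 q.2) {q | PencilPos q.1 q.2} ∧
    ContinuousOn (fun q : Mat N × Mat N => X q.1 q.2) {q | PencilPos q.1 q.2} ∧
    (∀ (G A : Mat N) (t : ℝ), PencilPos G (A + (t : ℂ) • 1) →
      HasDerivAt (fun u : ℝ => (Z G (A + (u : ℂ) • 1)).trace.im)
        (X G (A + (t : ℂ) • 1)).trace.re t) ∧
    ∀ (a b t : ℝ) (K : Mat N) (hK : K.IsHermitian) (G G' : ℝ → Mat N),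
      a < b → 0 < t → K.PosDef → ContinuousOn G' (Icc a b) →
      (∀ x ∈ Icc a b, HasDerivWithinAt G (G' x) (Icc a b) x) →
      G a = K → G b = -K →
      (∀ x ∈ Icc a b, PencilPos (G x) (K * K + (t : ℂ) • 1)) →
      ∫ x in a..b, (X (G x) (K * K + (t : ℂ) • 1) * G' x).trace.re
        = -∑ i, Real.arctan (hK.eigenvalues i / Real.sqrt t)

/-! ### Full-kernel potentials -/

/-- `G` is the logarithmic derivative of a full kernel of `-d²/dx² + K² - V`, `V` living on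
`[a, b]`: it leads from `K` to `-K`. -/
structure IsFlip {N : ℕ} (a b : ℝ) (K : Mat N) (V G : ℝ → Mat N) : Prop where
  posDef : K.PosDef
  herm : ∀ x ∈ Icc a b, (G x).IsHermitian
  left : G a = K
  right : G b = -K
  deriv : ∀ x ∈ Icc a b, HasDerivWithinAt G (K * K - G x * G x - V x) (Icc a b) x

/-- The sharp inequality for full-kernel potentials (module Calib). -/
def CalibStmt : Prop :=
  ∀ γ : ℝ, 1 / 2 < γ → γ < 3 / 2 → ∀ (N : ℕ) (a b : ℝ) (K : Mat N) (V G : ℝ → Mat N),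
    a < b → (∀ x ∈ Icc a b, (V x).PosSemidef) → ContinuousOn V (Icc a b) →
    IsFlip a b K V G →
    (cfc (fun k : ℝ => k ^ (2 * γ)) K).trace.re ≤
      calConst γ * ∫ x in a..b, trPow (γ + 1 / 2) V x

/-- Every family of potentials has a self-consistent flip (module Shoot). -/
def ShootStmt : Prop :=
  ∀ (N : ℕ) (a b c M : ℝ) (V : Mat N → ℝ → Mat N), a < b → 0 < c →
    ContinuousOn (fun q : Mat N × ℝ => V q.1 q.2) ({K | K.PosDef} ×ˢ Icc a b) →
    (∀ K, K.PosDef → ∀ x ∈ Icc a b, (V K x).PosSemidef ∧ ‖V K x‖ ≤ M) →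
    (∀ K, K.PosDef → ((∫ x in a..b, V K x) - (c : ℂ) • 1).PosSemidef) →
    ∃ (K : Mat N) (G : ℝ → Mat N), IsFlip a b K (V K) G

/-! ### Families -/

/-- The matrix of `⟨u i, W u j⟩ - ⟨u' i, u' j⟩`: minus the form of `-d²/dx² - W` on the family. -/
noncomputable def energyMat {m N : ℕ} (W : ℝ → Matrix (Fin m) (Fin m) ℂ)
    (u u' : Fin N → ℝ → EuclideanSpace ℂ (Fin m)) : Mat N :=
  Matrix.of fun i j => (∫ x, inner ℂ (u i x) (WithLp.toLp 2 (W x *ᵥ (u j x).ofLp)))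
    - ∫ x, inner ℂ (u' i x) (u' j x)

/-- The family is orthogonal for the form of `-d²/dx² - W` too. -/
def IsFormDiag {m N : ℕ} (W : ℝ → Matrix (Fin m) (Fin m) ℂ)
    (u u' : Fin N → ℝ → EuclideanSpace ℂ (Fin m)) : Prop :=
  ∀ i j, i ≠ j → energyMat W u u' i j = 0

/-- The Lieb-Thirring inequality with the constant `calConst γ` for the potential `W`. -/
def LTBound {m : ℕ} (γ : ℝ) (W : ℝ → Matrix (Fin m) (Fin m) ℂ) : Prop :=
  ∀ (N : ℕ) (u u' : Fin N → ℝ → EuclideanSpace ℂ (Fin m)), IsFamily u u' → IsFormDiag W u u' →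
    ∑ i, max (negEnergy W (u i) (u' i)) 0 ^ γ ≤ calConst γ * ∫ x, trPow (γ + 1 / 2) W x

/-- Trial functions (module Trial). -/
def TrialStmt : Prop :=
  CalibStmt → ShootStmt → ∀ γ : ℝ, 1 / 2 < γ → γ < 3 / 2 →
    ∀ (m : ℕ) (W : ℝ → Matrix (Fin m) (Fin m) ℂ),
      (∀ x, (W x).PosSemidef) → Continuous W → HasCompactSupport W → LTBound γ W

/-- From continuous compactly supported potentials to all potentials (module Density). -/
def DensityStmt : Prop :=
  ∀ γ : ℝ, 1 / 2 < γ → γ < 3 / 2 → ∀ m : ℕ,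
    (∀ W : ℝ → Matrix (Fin m) (Fin m) ℂ,
      (∀ x, (W x).PosSemidef) → Continuous W → HasCompactSupport W → LTBound γ W) →
    ∀ W : ℝ → Matrix (Fin m) (Fin m) ℂ, IsPotential (γ + 1 / 2) W →
      LTBound γ W ∧
      ∀ (N : ℕ) (u u' : Fin N → ℝ → EuclideanSpace ℂ (Fin m)), IsFamily u u' →
        ∀ i j, Integrable fun x => inner ℂ (u i x) (WithLp.toLp 2 (W x *ᵥ (u j x).ofLp))

/-- The soliton attains the constant (module Soliton). -/
def SolitonStmt : Prop :=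
  ∀ γ : ℝ, 1 / 2 < γ → γ < 3 / 2 → ∀ m : ℕ, 1 ≤ m →
    ∃ (W : ℝ → Matrix (Fin m) (Fin m) ℂ) (u u' : Fin 1 → ℝ → EuclideanSpace ℂ (Fin m)),
      IsPotential (γ + 1 / 2) W ∧ 0 < ∫ x, trPow (γ + 1 / 2) W x ∧ IsFamily u u' ∧
      max (negEnergy W (u 0) (u' 0)) 0 ^ γ = calConst γ * ∫ x, trPow (γ + 1 / 2) W x

end Vale.Agent.P371.Gamma
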