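import Vale.Agent.P371.Attain
import Vale.Agent.P371.Gamma.Defs

/-!
P371: from continuous compactly supported potentials to all potentials.
-/

open Matrix MeasureTheory Filter Topology
open scoped Matrix.Norms.L2Operator ComplexOrder MatrixOrder ENNReal

namespace Vale.Agent.P371.Gamma

variable {m N : ℕ}

/-! ### The pairing `⟨a, A b⟩` -/

private noncomputable def pair (A : Mat m) (a b : EuclideanSpace ℂ (Fin m)) : ℂ :=
  inner ℂ a (WithLp.toLp 2 (A *ᵥ b.ofLp))

private lemma norm_pair_le (A : Mat m) (a b : EuclideanSpace ℂ (Fin m)) :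
    ‖pair A a b‖ ≤ ‖A‖ * (‖a‖ * ‖b‖) := by
  refine (norm_inner_le_norm _ _).trans ?_
  rw [mul_left_comm]
  exact mul_le_mul_of_nonneg_left (l2_opNorm_mulVec A b) (norm_nonneg _)

private lemma continuous_pair : Continuous
    fun q : Mat m × EuclideanSpace ℂ (Fin m) × EuclideanSpace ℂ (Fin m) =>
      pair q.1 q.2.1 q.2.2 := by
  unfold pair
  exact (continuous_fst.comp continuous_snd).inner ((PiLp.continuous_toLp 2 _).comp
    (continuous_fst.matrix_mulVec ((PiLp.continuous_ofLp 2 _).comp
      (continuous_snd.comp continuous_snd))))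

private lemma pair_conj {A : Mat m} (hA : A.IsHermitian) (a b : EuclideanSpace ℂ (Fin m)) :
    star (pair A a b) = pair A b a := by
  simp only [pair, EuclideanSpace.inner_eq_star_dotProduct]
  rw [dotProduct_comm, ← Matrix.star_dotProduct, Matrix.star_mulVec, hA.eq, ← dotProduct_mulVec,
    dotProduct_comm]

private lemma pair_sum {ι κ : Type*} (s : Finset ι) (t : Finset κ) (A : Mat m) (c : ι → ℂ)
    (d : κ → ℂ) (a : ι → EuclideanSpace ℂ (Fin m)) (b : κ → EuclideanSpace ℂ (Fin m)) :
    pair A (∑ i ∈ s, c i • a i) (∑ j ∈ t, d j • b j)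
      = ∑ i ∈ s, ∑ j ∈ t, star (c i) * d j * pair A (a i) (b j) := by
  have e : ∀ v : EuclideanSpace ℂ (Fin m),
      WithLp.toLp 2 (A *ᵥ v.ofLp) = Matrix.toEuclideanCLM (𝕜 := ℂ) A v := fun _ => rfl
  simp only [pair, e, map_sum, map_smul, sum_inner, inner_sum, inner_smul_left, inner_smul_right,
    RCLike.star_def, Finset.mul_sum]
  rw [Finset.sum_comm]
  refine Finset.sum_congr rfl fun i _ => Finset.sum_congr rfl fun j _ => ?_
  ring

section

attribute [local irreducible] pair

private lemma tendsto_pair {ι : Type*} {l : Filter ι} {A : ι → Mat m} {B : Mat m}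
    (h : Tendsto A l (𝓝 B)) (a b : EuclideanSpace ℂ (Fin m)) :
    Tendsto (fun n => pair (A n) a b) l (𝓝 (pair B a b)) := by
  have hc : Continuous fun C : Mat m => pair C a b :=
    Continuous.comp (g := fun q : Mat m × EuclideanSpace ℂ (Fin m) × EuclideanSpace ℂ (Fin m) =>
      pair q.1 q.2.1 q.2.2) continuous_pair (continuous_id.prodMk (continuous_const (y := (a, b))))
  exact (hc.tendsto B).comp h

end

/-! ### Bounds on functional calculus -/

private lemma spectrum_abs_le {A : Mat m} (hA : A.IsHermitian) {x : ℝ}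
    (hx : x ∈ spectrum ℝ A) : |x| ≤ ‖A‖ := by
  rw [hA.spectrum_real_eq_range_eigenvalues] at hx
  obtain ⟨i, rfl⟩ := hx
  have h1 : ‖hA.eigenvectorBasis i‖ = 1 := hA.eigenvectorBasis.orthonormal.1 i
  have h2 := l2_opNorm_mulVec A (hA.eigenvectorBasis i)
  rw [hA.mulVec_eigenvectorBasis, h1, mul_one] at h2
  simpa [norm_smul, h1] using h2

private lemma norm_rpow_le_trace {A : Mat m} (hA : A.PosSemidef) {p : ℝ} (hp : 0 < p) :
    ‖A‖ ^ p ≤ (cfc (fun w : ℝ => w ^ p) A).trace.re := by
  rw [trace_cfc_re hA.1]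
  set S := ∑ i, hA.1.eigenvalues i ^ p with hS
  have hS0 : 0 ≤ S := Finset.sum_nonneg fun i _ => Real.rpow_nonneg (hA.eigenvalues_nonneg i) _
  have hn : ‖A‖ ≤ S ^ p⁻¹ := by
    conv_lhs => rw [← cfc_id ℝ A hA.1]
    refine norm_cfc_le (Real.rpow_nonneg hS0 _) fun x hx => ?_
    rw [hA.1.spectrum_real_eq_range_eigenvalues] at hx
    obtain ⟨i, rfl⟩ := hx
    have h0 := hA.eigenvalues_nonneg i
    rw [id_eq, Real.norm_eq_abs, abs_of_nonneg h0, Real.le_rpow_inv_iff_of_pos h0 hS0 hp, hS]
    exact Finset.single_le_sum (f := fun i => hA.1.eigenvalues i ^ p)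
      (fun j _ => Real.rpow_nonneg (hA.eigenvalues_nonneg j) _) (Finset.mem_univ i)
  exact (Real.le_rpow_inv_iff_of_pos (norm_nonneg _) hS0 hp).1 hn

private lemma trace_cfc_le_norm {A : Mat m} (hA : A.PosSemidef) {p : ℝ} (hp : 0 < p) :
    |(cfc (fun w : ℝ => w ^ p) A).trace.re| ≤ m * ‖A‖ ^ p := by
  rw [trace_cfc_re hA.1,
    abs_of_nonneg (Finset.sum_nonneg fun i _ => Real.rpow_nonneg (hA.eigenvalues_nonneg i) _)]
  refine (Finset.sum_le_card_nsmul _ _ (‖A‖ ^ p) fun i _ => ?_).trans (le_of_eq (by simp))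
  refine Real.rpow_le_rpow (hA.eigenvalues_nonneg i) ?_ hp.le
  exact (le_abs_self _).trans (spectrum_abs_le hA.1 (hA.1.eigenvalues_mem_spectrum_real i))

private lemma tendsto_trace_cfc {ι : Type*} {l : Filter ι} {A : ι → Mat m} {B : Mat m}
    (hA : ∀ n, (A n).IsHermitian) (hB : B.IsHermitian) (h : Tendsto A l (𝓝 B)) {f : ℝ → ℝ}
    (hf : Continuous f) :
    Tendsto (fun n => (cfc f (A n)).trace.re) l (𝓝 (cfc f B).trace.re) := by
  have hs : ∀ {C : Mat m}, C.IsHermitian → ‖C‖ ≤ ‖B‖ + 1 →
      spectrum ℝ C ⊆ Set.Icc (-(‖B‖ + 1)) (‖B‖ + 1) := fun hC hle x hx =>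
    abs_le.1 ((spectrum_abs_le hC hx).trans hle)
  have hev : ∀ᶠ n in l, ‖A n‖ ≤ ‖B‖ + 1 :=
    h.norm.eventually (ge_mem_nhds (lt_add_one _))
  have hc : Tendsto (fun n => cfc f (A n)) l (𝓝 (cfc f B)) :=
    Filter.Tendsto.cfc isCompact_Icc f h (hev.mono fun n hn => hs (hA n) hn)
      (Eventually.of_forall hA) (hs hB (le_add_of_nonneg_right zero_le_one)) hB hf.continuousOn
  exact ((Complex.continuous_re.comp
    (continuous_id.matrix_trace)).tendsto _).comp hc

/-! ### Families and integrability -/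

private lemma family_bdd {u u' : Fin N → ℝ → EuclideanSpace ℂ (Fin m)}
    (hu : IsFamily u u') : ∃ B : ℝ, 0 ≤ B ∧ ∀ i x, ‖u i x‖ ^ 2 ≤ B := by
  obtain ⟨hd, hc, h2, h2', -⟩ := hu
  refine ⟨∑ i, ∫ x, (‖u i x‖ ^ 2 + ‖u' i x‖ ^ 2),
    Finset.sum_nonneg fun i _ => integral_nonneg fun x => by positivity, fun i x => ?_⟩
  have hcu : Continuous (u i) := continuous_iff_continuousAt.2 fun y => (hd i y).continuousAt
  have hn := (memLp_two_iff_integrable_sq_norm (h2 i).aestronglyMeasurable).1 (h2 i)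
  have hn' := (memLp_two_iff_integrable_sq_norm (h2' i).aestronglyMeasurable).1 (h2' i)
  set g : ℝ → ℂ := fun y => inner ℂ (u i y) (u i y)
  set g' : ℝ → ℂ := fun y => inner ℂ (u i y) (u' i y) + inner ℂ (u' i y) (u i y)
  have hg : ∀ y, ‖g y‖ = ‖u i y‖ ^ 2 := fun y => by simp [g]
  have hgd : ∀ y, HasDerivAt g (g' y) y := fun y => (hd i y).inner ℂ (hd i y)
  have hg'le : ∀ y, ‖g' y‖ ≤ ‖u i y‖ ^ 2 + ‖u' i y‖ ^ 2 := fun y =>
    (norm_add_le _ _).trans (by
      nlinarith [norm_inner_le_norm (𝕜 := ℂ) (u i y) (u' i y),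
        norm_inner_le_norm (𝕜 := ℂ) (u' i y) (u i y), sq_nonneg (‖u i y‖ - ‖u' i y‖)])
  have hgi : Integrable g :=
    hn.mono' (hcu.inner hcu).aestronglyMeasurable (Eventually.of_forall fun y => (hg y).le)
  have hg'i : Integrable g' := (hn.add hn').mono'
    ((hcu.inner (hc i)).add ((hc i).inner hcu)).aestronglyMeasurable (Eventually.of_forall hg'le)
  have h0 : Tendsto g atBot (𝓝 0) :=
    tendsto_zero_of_hasDerivAt_of_integrableOn_Iic (a := x) (fun y _ => hgd y)
      hg'i.integrableOn hgi.integrableOn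
  have hft := integral_Iic_of_hasDerivAt_of_tendsto' (a := x) (fun y _ => hgd y)
    hg'i.integrableOn h0
  rw [sub_zero] at hft
  rw [← hg, ← hft]
  refine (norm_integral_le_integral_norm _).trans ?_
  refine (setIntegral_le_integral hg'i.norm (Eventually.of_forall fun y => norm_nonneg _)).trans ?_
  refine (integral_mono hg'i.norm (hn.add hn') hg'le).trans ?_
  exact Finset.single_le_sum (f := fun j => ∫ y, (‖u j y‖ ^ 2 + ‖u' j y‖ ^ 2))
    (fun j _ => integral_nonneg fun y => by positivity) (Finset.mem_univ i)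

/-- A bound on the pairing by `‖A‖ ^ p`. -/
private lemma pair_le {u : Fin N → ℝ → EuclideanSpace ℂ (Fin m)} {B p : ℝ}
    (hp : 1 ≤ p) (hB0 : 0 ≤ B) (hB : ∀ i x, ‖u i x‖ ^ 2 ≤ B) (A : Mat m) (i j : Fin N) (x : ℝ) :
    ‖pair A (u i x) (u j x)‖ ≤ B * ‖A‖ ^ p + (‖u i x‖ ^ 2 + ‖u j x‖ ^ 2) := by
  refine (norm_pair_le A _ _).trans ?_
  set w := ‖A‖
  have hw : 0 ≤ w := norm_nonneg _
  have hwp : 0 ≤ w ^ p := Real.rpow_nonneg hw p
  set b := ‖u i x‖ * ‖u j x‖
  have hb0 : 0 ≤ b := by positivity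
  have hb1 : b ≤ ‖u i x‖ ^ 2 + ‖u j x‖ ^ 2 := by
    simp only [b]; nlinarith [sq_nonneg (‖u i x‖ - ‖u j x‖)]
  have hb2 : b ≤ B := by
    simp only [b]; nlinarith [sq_nonneg (‖u i x‖ - ‖u j x‖), hB i x, hB j x]
  rcases le_total w 1 with h | h
  · have := mul_le_mul_of_nonneg_right h hb0
    nlinarith
  · have h3 := Real.self_le_rpow_of_one_le h hp
    have h4 := mul_le_mul h3 hb2 hb0 hwp
    nlinarith

section

attribute [local irreducible] pair

private lemma pair_measurable {W : ℝ → Mat m} (hW : AEStronglyMeasurable W)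
    {a b : ℝ → EuclideanSpace ℂ (Fin m)} (ha : Continuous a) (hb : Continuous b) :
    AEStronglyMeasurable fun x => pair (W x) (a x) (b x) :=
  by
  have h : AEStronglyMeasurable (fun x => (W x, (a x, b x))) :=
    hW.prodMk (ha.aestronglyMeasurable.prodMk hb.aestronglyMeasurable)
  exact Continuous.comp_aestronglyMeasurable
    (g := fun q : Mat m × EuclideanSpace ℂ (Fin m) × EuclideanSpace ℂ (Fin m) =>
      pair q.1 q.2.1 q.2.2) continuous_pair h

end

private lemma pair_integrable {W : ℝ → Mat m} {p : ℝ} (hp : 1 ≤ p) (hW : AEStronglyMeasurable W)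
    (hint : Integrable fun x => ‖W x‖ ^ p) {u u' : Fin N → ℝ → EuclideanSpace ℂ (Fin m)}
    (hu : IsFamily u u') (i j : Fin N) : Integrable fun x => pair (W x) (u i x) (u j x) := by
  obtain ⟨B, hB0, hB⟩ := family_bdd hu
  obtain ⟨hd, -, h2, -, -⟩ := hu
  have hcu : ∀ k, Continuous (u k) := fun k =>
    continuous_iff_continuousAt.2 fun y => (hd k y).continuousAt
  have hn := fun k => (memLp_two_iff_integrable_sq_norm (h2 k).aestronglyMeasurable).1 (h2 k)
  exact ((hint.const_mul B).add ((hn i).add (hn j))).mono' (pair_measurable hW (hcu i) (hcu j))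
    (Eventually.of_forall fun x => pair_le hp hB0 hB (W x) i j x)

private lemma inner_integrable {a b : ℝ → EuclideanSpace ℂ (Fin m)} (ha : MemLp a 2)
    (hb : MemLp b 2) : Integrable fun x => inner ℂ (a x) (b x) := by
  refine (((memLp_two_iff_integrable_sq_norm ha.aestronglyMeasurable).1 ha).add
    ((memLp_two_iff_integrable_sq_norm hb.aestronglyMeasurable).1 hb)).mono'
    (ha.aestronglyMeasurable.inner hb.aestronglyMeasurable) (Eventually.of_forall fun x => ?_)
  refine (norm_inner_le_norm _ _).trans ?_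
  simp only [Pi.add_apply]
  nlinarith [sq_nonneg (‖a x‖ - ‖b x‖)]

private lemma integral_sum_sum {f : Fin N → Fin N → ℝ → ℂ} (hf : ∀ i j, Integrable (f i j))
    (U : Mat N) (c d : Fin N) :
    ∫ x, ∑ i, ∑ j, star (U i c) * U j d * f i j x
      = (star U * (Matrix.of fun i j => ∫ x, f i j x) * U) c d := by
  rw [integral_finsetSum _ fun i _ => integrable_finsetSum _ fun j _ => (hf i j).const_mul _]
  simp only [integral_finsetSum _ fun j _ => (hf _ j).const_mul _, integral_const_mul,
    Matrix.mul_apply, Matrix.star_apply, Matrix.of_apply, Finset.sum_mul]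
  rw [Finset.sum_comm]
  refine Finset.sum_congr rfl fun j _ => Finset.sum_congr rfl fun i _ => ?_
  ring

private lemma energyMat_isHermitian {W : ℝ → Mat m} (hW : ∀ x, (W x).IsHermitian)
    (u u' : Fin N → ℝ → EuclideanSpace ℂ (Fin m)) : (energyMat W u u').IsHermitian := by
  refine Matrix.IsHermitian.ext fun i j => ?_
  simp only [energyMat, Matrix.of_apply, star_sub, RCLike.star_def, ← integral_conj,
    inner_conj_symm]
  congr 1
  refine integral_congr_ae (Eventually.of_forall fun x => ?_)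
  exact (inner_conj_symm _ _).symm.trans (pair_conj (hW x) (u j x) (u i x))

private lemma energyMat_diag {W : ℝ → Mat m} {u u' : Fin N → ℝ → EuclideanSpace ℂ (Fin m)}
    (hu : IsFamily u u') (hi : ∀ i j, Integrable fun x => pair (W x) (u i x) (u j x)) (i : Fin N) :
    (energyMat W u u' i i).re = negEnergy W (u i) (u' i) := by
  simp only [energyMat, Matrix.of_apply, negEnergy, Complex.sub_re]
  congr 1
  · exact (integral_re (hi i i)).symm
  · refine (integral_re (inner_integrable (hu.2.2.2.1 i) (hu.2.2.2.1 i))).symm.trans ?_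
    exact integral_congr_ae (Eventually.of_forall fun x => inner_self_eq_norm_sq (𝕜 := ℂ) _)

/-- For a potential satisfying the bound, the trace of `E ↦ max E 0 ^ γ` of the energy matrix of
any family is bounded. -/
private lemma trace_le_of_LTBound {W : ℝ → Mat m} {γ p : ℝ} (hp : 1 ≤ p)
    (hW : ∀ x, (W x).IsHermitian) (hWm : AEStronglyMeasurable W)
    (hint : Integrable fun x => ‖W x‖ ^ p) (hLT : LTBound γ W)
    {u u' : Fin N → ℝ → EuclideanSpace ℂ (Fin m)} (hu : IsFamily u u') :
    (cfc (fun e : ℝ => max e 0 ^ γ) (energyMat W u u')).trace.re ≤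
      calConst γ * ∫ x, trPow (γ + 1 / 2) W x := by
  have hE := energyMat_isHermitian hW u u'
  have hpi := pair_integrable hp hWm hint hu
  obtain ⟨hd, hc, h2, h2', horth⟩ := hu
  set E := energyMat W u u' with hEdef
  set U : Mat N := (hE.eigenvectorUnitary : Mat N) with hUdef
  have hUU : star U * U = 1 := Unitary.coe_star_mul_self _
  have hdiag : star U * E * U = diagonal fun i => (hE.eigenvalues i : ℂ) := by
    have h := hE.conjStarAlgAut_star_eigenvectorUnitary
    simp only [Unitary.conjStarAlgAut_star_apply] at h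
    exact h
  set v : Fin N → ℝ → EuclideanSpace ℂ (Fin m) := fun c x => ∑ i, U i c • u i x with hv
  set v' : Fin N → ℝ → EuclideanSpace ℂ (Fin m) := fun c x => ∑ i, U i c • u' i x with hv'
  have hexp : ∀ (a b : Fin N → EuclideanSpace ℂ (Fin m)) (c d : Fin N),
      inner ℂ (∑ i, U i c • a i) (∑ j, U j d • b j)
        = ∑ i, ∑ j, star (U i c) * U j d * inner ℂ (a i) (b j) := by
    intro a b c d
    simp only [sum_inner, inner_sum, inner_smul_left, inner_smul_right, RCLike.star_def,
      Finset.mul_sum]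
    rw [Finset.sum_comm]
    refine Finset.sum_congr rfl fun i _ => Finset.sum_congr rfl fun j _ => ?_
    ring
  have hfam : IsFamily v v' := by
    refine ⟨fun c x => HasDerivAt.fun_sum fun i _ => (hd i x).const_smul (U i c),
      fun c => continuous_finsetSum _ fun i _ => (hc i).const_smul (U i c),
      fun c => memLp_finsetSum _ fun i _ => (h2 i).const_smul (U i c),
      fun c => memLp_finsetSum _ fun i _ => (h2' i).const_smul (U i c), fun c d => ?_⟩
    simp only [hv, hexp]
    rw [integral_sum_sum (fun i j => inner_integrable (h2 i) (h2 j))]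
    have e : (Matrix.of fun i j => ∫ x, inner ℂ (u i x) (u j x)) = (1 : Mat N) := by
      ext i j; simp [horth, Matrix.one_apply]
    rw [e, mul_one, hUU, Matrix.one_apply]
  have hEv : energyMat W v v' = diagonal fun i => (hE.eigenvalues i : ℂ) := by
    rw [← hdiag]
    ext c d
    have e : E = (Matrix.of fun i j => ∫ x, pair (W x) (u i x) (u j x))
        - Matrix.of fun i j => ∫ x, inner ℂ (u' i x) (u' j x) := rfl
    rw [e, mul_sub, sub_mul, Matrix.sub_apply, ← integral_sum_sum hpi,
      ← integral_sum_sum (fun i j => inner_integrable (h2' i) (h2' j))]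
    simp only [energyMat, Matrix.of_apply, hv, hv', hexp]
    congr 1
    exact integral_congr_ae (Eventually.of_forall fun x => pair_sum _ _ (W x) _ _ _ _)
  have hform : IsFormDiag W v v' := fun i j hij => by rw [hEv]; exact diagonal_apply_ne _ hij
  have hneg : ∀ i, negEnergy W (v i) (v' i) = hE.eigenvalues i := fun i => by
    rw [← energyMat_diag hfam (pair_integrable hp hWm hint hfam) i, hEv, diagonal_apply_eq,
      Complex.ofReal_re]
  have h := hLT N v v' hfam hform
  simp only [hneg] at h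
  refine le_of_eq_of_le ?_ h
  exact trace_cfc_re hE _

/-! ### Approximation -/

/-- Continuous compactly supported positive approximations, dominated in `L^p`. -/
private lemma exists_approx {W : ℝ → Mat m} (hW : ∀ x, (W x).PosSemidef) {p : ℝ} (hp : 1 ≤ p)
    (hWm : AEStronglyMeasurable W) (hint : Integrable fun x => ‖W x‖ ^ p) :
    ∃ (V : ℕ → ℝ → Mat m) (G : ℝ → ℝ),
      (∀ n x, (V n x).PosSemidef) ∧ (∀ n, Continuous (V n)) ∧ (∀ n, HasCompactSupport (V n)) ∧
      Integrable G ∧ (∀ n, ∀ᵐ x, ‖V n x‖ ^ p ≤ G x) ∧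
      ∀ᵐ x, Tendsto (fun n => V n x) atTop (𝓝 (W x)) := by
  have hp0 : 0 < p := by linarith
  have hpne : ENNReal.ofReal p ≠ 0 := by simpa using hp0
  have hmem : MemLp W (ENNReal.ofReal p) := by
    rw [← integrable_norm_rpow_iff hWm hpne ENNReal.ofReal_ne_top]
    simpa [ENNReal.toReal_ofReal hp0.le] using hint
  have hex : ∀ n : ℕ, ∃ F : ℝ → Mat m, HasCompactSupport F ∧
      (∫ x, ‖W x - F x‖ ^ p) ≤ (1 / 2 : ℝ) ^ n ∧ Continuous F ∧ MemLp F (ENNReal.ofReal p) :=
    fun n => hmem.exists_hasCompactSupport_integral_rpow_sub_le hp0 (by positivity)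
  choose F hFs hFi hFc hFm using hex
  set h : ℕ → ℝ → ℝ := fun n x => ‖W x - F n x‖ ^ p with hh
  have hh0 : ∀ n x, 0 ≤ h n x := fun n x => Real.rpow_nonneg (norm_nonneg _) _
  have hhi : ∀ n, Integrable (h n) := fun n => by
    have := (integrable_norm_rpow_iff (hWm.sub (hFc n).aestronglyMeasurable) hpne
      ENNReal.ofReal_ne_top).2 (hmem.sub (hFm n))
    simpa [hh, ENNReal.toReal_ofReal hp0.le] using this
  set T : ℝ → ℝ≥0∞ := fun x => ∑' n, ENNReal.ofReal (h n x) with hT
  have hTm : AEMeasurable T :=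
    AEMeasurable.tsum fun n => (hhi n).aemeasurable.ennreal_ofReal
  have hTi : ∫⁻ x, T x ≠ ⊤ := by
    rw [hT, lintegral_tsum fun n => (hhi n).aemeasurable.ennreal_ofReal]
    refine ne_top_of_le_ne_top ?_ (ENNReal.tsum_le_tsum
      (g := fun n => ENNReal.ofReal ((1 / 2 : ℝ) ^ n)) fun n => ?_)
    · rw [← ENNReal.ofReal_tsum_of_nonneg (fun n => by positivity) summable_geometric_two]
      exact ENNReal.ofReal_ne_top
    · rw [← ofReal_integral_eq_lintegral_ofReal (hhi n) (Eventually.of_forall (hh0 n))]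
      exact ENNReal.ofReal_le_ofReal (hFi n)
  have hfin : ∀ᵐ x, T x < ⊤ := ae_lt_top' hTm hTi
  refine ⟨fun n x => CFC.abs (F n x), fun x => 2 ^ p * ((T x).toReal + ‖W x‖ ^ p),
    fun n x => Matrix.nonneg_iff_posSemidef.1 (CFC.abs_nonneg _),
    fun n => CFC.continuous_abs.comp (hFc n),
    fun n => (hFs n).comp_left CFC.abs_zero,
    ((integrable_toReal_of_lintegral_ne_top hTm hTi).add hint).const_mul _, fun n => ?_, ?_⟩
  · filter_upwards [hfin] with x hx
    rw [CFC.norm_abs]
    have h1 : h n x ≤ (T x).toReal := by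
      rw [← ENNReal.toReal_ofReal (hh0 n x)]
      exact ENNReal.toReal_mono hx.ne (ENNReal.le_tsum n)
    set a := ‖W x - F n x‖
    set b := ‖W x‖
    have hab : ‖F n x‖ ≤ 2 * max a b := by
      have := norm_sub_le (W x) (W x - F n x)
      rw [sub_sub_cancel] at this
      linarith [le_max_left a b, le_max_right a b]
    refine (Real.rpow_le_rpow (norm_nonneg _) hab hp0.le).trans ?_
    rw [Real.mul_rpow zero_le_two (le_max_of_le_left (norm_nonneg _))]
    refine mul_le_mul_of_nonneg_left ?_ (Real.rpow_nonneg zero_le_two _)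
    have hb0 : 0 ≤ b ^ p := Real.rpow_nonneg (norm_nonneg _) _
    have ha0 : 0 ≤ a ^ p := Real.rpow_nonneg (norm_nonneg _) _
    have h1' : a ^ p ≤ (T x).toReal := h1
    rcases max_choice a b with e | e <;> rw [e] <;> linarith
  · filter_upwards [hfin] with x hx
    have h0 : Tendsto (fun n => h n x) atTop (𝓝 0) := by
      have := ENNReal.tendsto_atTop_zero_of_tsum_ne_top hx.ne
      have h' := (ENNReal.tendsto_toReal ENNReal.zero_ne_top).comp this
      simpa [Function.comp_def, ENNReal.toReal_ofReal (hh0 _ x)] using h'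
    have h1 : Tendsto (fun n => ‖W x - F n x‖) atTop (𝓝 0) := by
      have h' := h0.rpow_const (p := p⁻¹) (Or.inr (by positivity))
      rw [Real.zero_rpow (by positivity)] at h'
      refine h'.congr fun n => ?_
      rw [hh, Real.rpow_rpow_inv (norm_nonneg _) hp0.ne']
    have h2 : Tendsto (fun n => F n x) atTop (𝓝 (W x)) := by
      rw [tendsto_iff_norm_sub_tendsto_zero]
      exact h1.congr fun n => norm_sub_rev _ _
    have h3 := (CFC.continuous_abs.tendsto (W x)).comp h2
    rwa [CFC.abs_of_nonneg _ (Matrix.nonneg_iff_posSemidef.2 (hW x))] at h3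

private lemma tendsto_energy {W : ℝ → Mat m} {V : ℕ → ℝ → Mat m} {G : ℝ → ℝ} {p : ℝ}
    (hp : 1 ≤ p) (hVc : ∀ n, Continuous (V n)) (hG : Integrable G)
    (hVG : ∀ n, ∀ᵐ x, ‖V n x‖ ^ p ≤ G x) (hVlim : ∀ᵐ x, Tendsto (fun n => V n x) atTop (𝓝 (W x)))
    {u u' : Fin N → ℝ → EuclideanSpace ℂ (Fin m)} (hu : IsFamily u u') :
    Tendsto (fun n => energyMat (V n) u u') atTop (𝓝 (energyMat W u u')) := by
  obtain ⟨B, hB0, hB⟩ := family_bdd hu
  obtain ⟨hd, -, h2, -, -⟩ := hu
  have hcu : ∀ k, Continuous (u k) := fun k =>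
    continuous_iff_continuousAt.2 fun y => (hd k y).continuousAt
  have hn := fun k => (memLp_two_iff_integrable_sq_norm (h2 k).aestronglyMeasurable).1 (h2 k)
  refine tendsto_pi_nhds.2 fun i => tendsto_pi_nhds.2 fun j => ?_
  have h : Tendsto (fun n => ∫ x, pair (V n x) (u i x) (u j x)) atTop
      (𝓝 (∫ x, pair (W x) (u i x) (u j x))) := by
    refine tendsto_integral_of_dominated_convergence
      (fun x => B * G x + (‖u i x‖ ^ 2 + ‖u j x‖ ^ 2))
      (fun n => pair_measurable (hVc n).aestronglyMeasurable (hcu i) (hcu j))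
      ((hG.const_mul B).add ((hn i).add (hn j))) (fun n => ?_) ?_
    · filter_upwards [hVG n] with x hx
      have h1 := pair_le hp hB0 hB (V n x) i j x
      have h2 := mul_le_mul_of_nonneg_left hx hB0
      linarith
    · filter_upwards [hVlim] with x hx
      exact tendsto_pair hx _ _
  exact h.sub_const (∫ x, inner ℂ (u' i x) (u' j x))

private lemma tendsto_potential {W : ℝ → Mat m} (hW : ∀ x, (W x).PosSemidef)
    {V : ℕ → ℝ → Mat m} {G : ℝ → ℝ} {p : ℝ} (hp : 0 < p) (hVpos : ∀ n x, (V n x).PosSemidef)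
    (hVc : ∀ n, Continuous (V n)) (hG : Integrable G) (hVG : ∀ n, ∀ᵐ x, ‖V n x‖ ^ p ≤ G x)
    (hVlim : ∀ᵐ x, Tendsto (fun n => V n x) atTop (𝓝 (W x))) :
    Tendsto (fun n => ∫ x, trPow p (V n) x) atTop (𝓝 (∫ x, trPow p W x)) := by
  refine tendsto_integral_of_dominated_convergence
    (fun x => (m : ℝ) * G x) (fun n => ?_) (hG.const_mul _) (fun n => ?_) ?_
  · refine Continuous.aestronglyMeasurable (continuous_iff_continuousAt.2 fun x => ?_)
    exact tendsto_trace_cfc (fun y => (hVpos n y).1) (hVpos n x).1 ((hVc n).tendsto x)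
      (Real.continuous_rpow_const hp.le)
  · filter_upwards [hVG n] with x hx
    rw [Real.norm_eq_abs]
    exact (trace_cfc_le_norm (hVpos n x) hp).trans
      (mul_le_mul_of_nonneg_left hx (Nat.cast_nonneg _))
  · filter_upwards [hVlim] with x hx
    exact tendsto_trace_cfc (fun n => (hVpos n x).1) (hW x).1 hx
      (Real.continuous_rpow_const hp.le)

/-- From continuous compactly supported potentials to all potentials. -/
theorem density : DensityStmt := by
  intro γ h1 _h2 m hbase W ⟨hW, hmeas, hint⟩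
  set p : ℝ := γ + 1 / 2 with hpdef
  have hp : 1 ≤ p := by linarith
  have hp0 : 0 < p := by linarith
  have hWm : AEStronglyMeasurable W := by
    have e : W = fun x => ∑ k, ∑ l, W x k l • Matrix.single k l (1 : ℂ) := by
      funext x
      conv_lhs => rw [Matrix.matrix_eq_sum_single (W x)]
      simp [Matrix.smul_single]
    rw [e]
    exact (Finset.stronglyMeasurable_fun_sum _ fun k _ =>
      Finset.stronglyMeasurable_fun_sum _ fun l _ =>
        ((hmeas k l).stronglyMeasurable.smul_const _)).aestronglyMeasurable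
  have hnint : Integrable fun x => ‖W x‖ ^ p := by
    refine hint.mono' ((hWm.norm.aemeasurable.pow_const p).aestronglyMeasurable)
      (Eventually.of_forall fun x => ?_)
    rw [Real.norm_eq_abs, abs_of_nonneg (Real.rpow_nonneg (norm_nonneg _) _)]
    exact norm_rpow_le_trace (hW x) hp0
  refine ⟨fun N u u' hu hd => ?_, fun N u u' hu i j => pair_integrable hp hWm hnint hu i j⟩
  obtain ⟨V, G, hVpos, hVc, hVs, hG, hVG, hVlim⟩ := exists_approx hW hp hWm hnint
  have hVi : ∀ n, Integrable fun x => ‖V n x‖ ^ p := fun n => by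
    refine hG.mono' ((hVc n).norm.rpow_const fun _ => Or.inr hp0.le).aestronglyMeasurable ?_
    filter_upwards [hVG n] with x hx
    rwa [Real.norm_eq_abs, abs_of_nonneg (Real.rpow_nonneg (norm_nonneg _) _)]
  have hEn := tendsto_energy hp hVc hG hVG hVlim hu
  have hrhs := (tendsto_potential hW hp0 hVpos hVc hG hVG hVlim).const_mul (calConst γ)
  have hf : Continuous fun e : ℝ => max e 0 ^ γ :=
    (continuous_id.max continuous_const).rpow_const fun _ => Or.inr (by linarith)
  have hlhs := tendsto_trace_cfc (fun n => energyMat_isHermitian (fun x => (hVpos n x).1) u u')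
    (energyMat_isHermitian (fun x => (hW x).1) u u') hEn hf
  have hle := le_of_tendsto_of_tendsto' hlhs hrhs fun n =>
    trace_le_of_LTBound hp (fun x => (hVpos n x).1) (hVc n).aestronglyMeasurable (hVi n)
      (hbase (V n) (hVpos n) (hVc n) (hVs n)) hu
  refine le_of_eq_of_le ?_ hle
  have hE := energyMat_isHermitian (fun x => (hW x).1) u u'
  have hpi := pair_integrable hp hWm hnint hu
  have e : energyMat W u u' = diagonal fun i => (negEnergy W (u i) (u' i) : ℂ) := by
    ext i j
    rcases eq_or_ne i j with rfl | hij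
    · rw [diagonal_apply_eq, ← energyMat_diag hu hpi i]
      exact (Matrix.IsHermitian.coe_re_apply_self hE i).symm
    · rw [diagonal_apply_ne _ hij]
      exact hd i j hij
  rw [e]
  exact (trace_cfc_diagonal (fun i => negEnergy W (u i) (u' i))
    (fun e : ℝ => max e 0 ^ γ)).symm

end Vale.Agent.P371.Gamma
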