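import Vale.Agent.P371.Gamma.Defs
import Vale.Agent.P225.Cluster.Brouwer

/-!
P371, module Shoot: every continuous bounded family `K ↦ V K` of nonnegative potentials with
`∫ V K ≥ c > 0` has a `K` whose Riccati flow leads from `K` to `-K`.

The Riccati field is cut off (`P` replaces `K` by something `≥ m`, `ρ` clips `G`, `σ` switches to a
constant field for large `K`), so that `X ↦ (re X - G b) / 2` is continuous and bounded; at a fixed
point, which exists by Brouwer, all three cutoffs are inactive.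
-/

open Matrix MeasureTheory Set Filter Topology Metric
open scoped Matrix.Norms.L2Operator ComplexOrder NNReal

namespace Vale.Agent.P371.Gamma

namespace Shoot

variable {N : ℕ}

/-- The complex vectors of length `N`. -/
abbrev Vec (N : ℕ) := EuclideanSpace ℂ (Fin N)

/-- A matrix as an operator. -/
noncomputable def op (A : Mat N) : (Vec N) →L[ℂ] (Vec N) := Matrix.toEuclideanCLM (n := Fin N) (𝕜 := ℂ) A

/-- The quadratic form of a matrix. -/
noncomputable def qf (A : Mat N) (v : (Vec N)) : ℝ := (inner ℂ v (op A v)).re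

theorem norm_op (A : Mat N) : ‖op A‖ = ‖A‖ := rfl

theorem norm_op_apply_le (A : Mat N) (v : (Vec N)) : ‖op A v‖ ≤ ‖A‖ * ‖v‖ := (op A).le_opNorm v

theorem continuous_op : Continuous (op : Mat N → _) :=
  AddMonoidHomClass.continuous_of_bound (Matrix.toEuclideanCLM (n := Fin N) (𝕜 := ℂ)) 1
    fun A => by rw [one_mul]; exact le_of_eq rfl

theorem real_smul_op (r : ℝ) (A : Mat N) (v : (Vec N)) : op (r • A) v = (r : ℂ) • op A v := by
  rw [op, op, ← Complex.coe_smul r A, map_smul]
  rfl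

theorem qf_add (A B : Mat N) (v : (Vec N)) : qf (A + B) v = qf A v + qf B v := by
  simp [qf, op]

theorem qf_smul (r : ℝ) (A : Mat N) (v : (Vec N)) : qf (r • A) v = r * qf A v := by
  simp [qf, real_smul_op]

/-- `qf · v` as a linear functional. -/
noncomputable def qL (v : (Vec N)) : Mat N →L[ℝ] ℝ :=
  LinearMap.toContinuousLinearMap
    { toFun := fun A => qf A v
      map_add' := fun A B => qf_add A B v
      map_smul' := fun r A => by simp [qf_smul] }

@[simp] theorem qL_apply (v : (Vec N)) (A : Mat N) : qL v A = qf A v := rfl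

theorem qf_sub (A B : Mat N) (v : (Vec N)) : qf (A - B) v = qf A v - qf B v := by
  simpa only [qL_apply] using map_sub (qL v) A B

theorem qf_neg (A : Mat N) (v : (Vec N)) : qf (-A) v = -qf A v := by
  simpa only [qL_apply] using map_neg (qL v) A

theorem qf_one (v : (Vec N)) : qf (1 : Mat N) v = ‖v‖ ^ 2 := by
  simp [qf, op, inner_self_eq_norm_sq_to_K, ← Complex.ofReal_pow]

theorem qf_smul_one (r : ℝ) (v : (Vec N)) : qf (r • (1 : Mat N)) v = r * ‖v‖ ^ 2 := by
  rw [qf_smul, qf_one]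

theorem qf_eq_dotProduct (A : Mat N) (x : Fin N → ℂ) :
    qf A (WithLp.toLp 2 x) = (star x ⬝ᵥ A *ᵥ x).re := by
  rw [qf, op, Matrix.toEuclideanCLM_toLp, EuclideanSpace.inner_eq_star_dotProduct,
    dotProduct_comm]

theorem abs_qf_le (A : Mat N) (v : (Vec N)) : |qf A v| ≤ ‖A‖ * ‖v‖ ^ 2 := by
  calc |qf A v| ≤ ‖inner ℂ v (op A v)‖ := Complex.abs_re_le_norm _
    _ ≤ ‖v‖ * ‖op A v‖ := norm_inner_le_norm _ _
    _ ≤ ‖v‖ * (‖A‖ * ‖v‖) := by gcongr; exact norm_op_apply_le A v
    _ = ‖A‖ * ‖v‖ ^ 2 := by ring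

theorem qf_smul_vec (A : Mat N) (t : ℝ) (v : (Vec N)) : qf A ((t : ℂ) • v) = t ^ 2 * qf A v := by
  simp [qf]
  ring

theorem qf_le_of_unit {A : Mat N} {r : ℝ} (h : ∀ u : (Vec N), ‖u‖ = 1 → qf A u ≤ r) (v : (Vec N)) :
    qf A v ≤ r * ‖v‖ ^ 2 := by
  rcases eq_or_ne v 0 with rfl | hv
  · simp [qf]
  have hn : 0 < ‖v‖ := norm_pos_iff.2 hv
  have hu := h (((‖v‖⁻¹ : ℝ) : ℂ) • v) (by
    rw [norm_smul, Complex.norm_real, norm_inv, norm_norm, inv_mul_cancel₀ hn.ne'])
  rw [qf_smul_vec, inv_pow, inv_mul_le_iff₀ (by positivity)] at hu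
  linarith

theorem abs_qf_le_of_unit {A : Mat N} {r : ℝ} (h : ∀ u : (Vec N), ‖u‖ = 1 → |qf A u| ≤ r) (v : (Vec N)) :
    |qf A v| ≤ r * ‖v‖ ^ 2 := by
  refine abs_le.2 ⟨?_, qf_le_of_unit (fun u hu => (le_abs_self _).trans (h u hu)) v⟩
  have := qf_le_of_unit (A := -A) (r := r)
    (fun u hu => by rw [qf_neg]; exact (neg_le_abs _).trans (h u hu)) v
  rw [qf_neg] at this; linarith

theorem inner_op_left {A : Mat N} (hA : star A = A) (x y : (Vec N)) :
    inner ℂ (op A x) y = inner ℂ x (op A y) := by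
  have h : star (op A) = op A := by rw [op, ← map_star, hA]
  conv_lhs => rw [← h, ContinuousLinearMap.star_eq_adjoint, ContinuousLinearMap.adjoint_inner_left]

theorem qf_sq {A : Mat N} (hA : star A = A) (v : (Vec N)) : qf (A * A) v = ‖op A v‖ ^ 2 := by
  have h : op (A * A) v = op A (op A v) := by simp [op]
  rw [qf, h, ← inner_op_left hA, inner_self_eq_norm_sq_to_K]
  simp [← Complex.ofReal_pow]

theorem sq_qf_le {A : Mat N} (hA : star A = A) {u : (Vec N)} (hu : ‖u‖ = 1) :
    qf A u ^ 2 ≤ qf (A * A) u := by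
  rw [qf_sq hA, ← sq_abs]
  gcongr
  calc |qf A u| ≤ ‖inner ℂ u (op A u)‖ := Complex.abs_re_le_norm _
    _ ≤ ‖u‖ * ‖op A u‖ := norm_inner_le_norm _ _
    _ = ‖op A u‖ := by rw [hu, one_mul]

theorem qf_sq_le {A : Mat N} (hA : star A = A) {r : ℝ} (hr : ‖A‖ ≤ r) {u : (Vec N)} (hu : ‖u‖ = 1) :
    qf (A * A) u ≤ r ^ 2 := by
  rw [qf_sq hA]
  gcongr
  simpa [hu] using (norm_op_apply_le A u).trans (mul_le_mul_of_nonneg_right hr (norm_nonneg u))

theorem norm_le_of_qf {A : Mat N} (hA : star A = A) {r : ℝ} (hr : 0 ≤ r)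
    (h : ∀ v : (Vec N), |qf A v| ≤ r * ‖v‖ ^ 2) : ‖A‖ ≤ r := by
  rw [← norm_op]
  refine (op A).opNorm_le_bound hr fun u => ?_
  rcases eq_or_ne (op A u) 0 with h0 | h0
  · rw [h0, norm_zero]; positivity
  rcases eq_or_ne u 0 with rfl | hu
  · simp at h0
  have hn : 0 < ‖op A u‖ := norm_pos_iff.2 h0
  have hu' : 0 < ‖u‖ := norm_pos_iff.2 hu
  set t : ℝ := ‖u‖ / ‖op A u‖
  set w : (Vec N) := (t : ℂ) • op A u
  have hw : ‖w‖ = ‖u‖ := by
    rw [norm_smul, Complex.norm_real, Real.norm_of_nonneg (by positivity),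
      div_mul_cancel₀ _ hn.ne']
  have key : qf A (u + w) - qf A (u - w) = 4 * (‖u‖ * ‖op A u‖) := by
    have h1 : qf A (u + w) - qf A (u - w) =
        2 * ((inner ℂ u (op A w)).re + (inner ℂ w (op A u)).re) := by
      simp only [qf, map_add, map_sub, inner_add_left, inner_add_right, inner_sub_left,
        inner_sub_right, Complex.add_re, Complex.sub_re]
      ring
    have h2 : (inner ℂ u (op A w)).re = (inner ℂ w (op A u)).re := by
      rw [← inner_op_left hA, ← inner_conj_symm (op A u) w, Complex.conj_re]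
    have h3 : (inner ℂ w (op A u)).re = ‖u‖ * ‖op A u‖ := by
      have : inner ℂ w (op A u) = ((t * ‖op A u‖ ^ 2 : ℝ) : ℂ) := by
        simp [w, inner_self_eq_norm_sq_to_K]
      rw [this, Complex.ofReal_re]
      simp only [t]; field_simp
    rw [h1, h2, h3]; ring
  have hp := parallelogram_law_with_norm ℂ u w
  have e1 := (abs_le.1 (h (u + w))).2
  have e2 := (abs_le.1 (h (u - w))).1
  have : 4 * (‖u‖ * ‖op A u‖) ≤ 4 * (r * ‖u‖ * ‖u‖) := by
    rw [← key]; rw [hw] at hp; nlinarith [hp, e1, e2]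
  nlinarith

theorem op_eq_zero_of_qf {A : Mat N} (hA : star A = A) (h : ∀ v : (Vec N), 0 ≤ qf A v) {u : (Vec N)}
    (hu : qf A u = 0) : op A u = 0 := by
  by_contra hne
  set w := op A u
  have hc : 0 < ‖w‖ ^ 2 := by positivity
  have hq := h w
  set t : ℝ := -‖w‖ ^ 2 / (qf A w + 1)
  have e : qf A (u + (t : ℂ) • w) = 2 * t * ‖w‖ ^ 2 + t ^ 2 * qf A w := by
    have h1 : qf A (u + (t : ℂ) • w) =
        qf A u + t * ((inner ℂ u (op A w)).re + (inner ℂ w (op A u)).re) + t ^ 2 * qf A w := by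
      simp [qf]
      ring
    have h2 : (inner ℂ w (op A u)).re = ‖w‖ ^ 2 := by
      simp [w, inner_self_eq_norm_sq_to_K, ← Complex.ofReal_pow]
    have h3 : (inner ℂ u (op A w)).re = ‖w‖ ^ 2 := by
      rw [← inner_op_left hA]; exact h2
    rw [h1, h2, h3, hu]; ring
  have h4 := h (u + (t : ℂ) • w)
  rw [e] at h4
  have : 2 * t * ‖w‖ ^ 2 + t ^ 2 * qf A w
      = -((‖w‖ ^ 2) ^ 2 * (qf A w + 2)) / (qf A w + 1) ^ 2 := by
    simp only [t]; field_simp; ring
  rw [this, neg_div] at h4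
  have : 0 < (‖w‖ ^ 2) ^ 2 * (qf A w + 2) / (qf A w + 1) ^ 2 := by positivity
  linarith

theorem qf_nonneg {A : Mat N} (hA : A.PosSemidef) (v : (Vec N)) : 0 ≤ qf A v := by
  have := qf_eq_dotProduct A v.ofLp
  rw [WithLp.toLp_ofLp] at this
  rw [this]
  exact (Complex.le_def.1 (hA.dotProduct_mulVec_nonneg v.ofLp)).1

theorem posDef_of_qf {A : Mat N} (hA : star A = A) {m : ℝ} (hm : 0 < m)
    (h : ∀ v : (Vec N), m * ‖v‖ ^ 2 ≤ qf A v) : A.PosDef := by
  refine Matrix.PosDef.of_dotProduct_mulVec_pos (by rwa [IsHermitian, ← star_eq_conjTranspose])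
    fun x hx => ?_
  have h1 := h (WithLp.toLp 2 x)
  have : (0:ℝ) < m * ‖(WithLp.toLp 2 x : (Vec N))‖ ^ 2 := by
    have : (WithLp.toLp 2 x : (Vec N)) ≠ 0 := by simpa using hx
    positivity
  rw [qf_eq_dotProduct] at h1
  have hH : A.IsHermitian := by rwa [IsHermitian, ← star_eq_conjTranspose]
  refine Complex.lt_def.2 ⟨by rw [Complex.zero_re]; linarith, ?_⟩
  rw [Complex.zero_im]
  exact (hH.im_star_dotProduct_mulVec_self x).symm

/-! ### The cutoffs -/

/-- The Hermitian part. -/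
noncomputable def re (X : Mat N) : Mat N := (2 : ℝ)⁻¹ • (X + star X)

theorem star_re (X : Mat N) : star (re X) = re X := by
  simp [re, add_comm]

theorem re_of_star {X : Mat N} (h : star X = X) : re X = X := by
  rw [re, h, ← two_smul ℝ X, smul_smul]; norm_num

theorem continuous_re : Continuous (re : Mat N → Mat N) := by unfold re; fun_prop

/-- How far `A` is below `m`. -/
noncomputable def gap (m : ℝ) (A : Mat N) : ℝ :=
  sSup ((fun v : (Vec N) => m * ‖v‖ ^ 2 - qf A v) '' closedBall 0 1)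

theorem continuous_qf : Continuous fun p : Mat N × (Vec N) => qf p.1 p.2 :=
  Complex.continuous_re.comp
    (continuous_snd.inner ((continuous_op.comp continuous_fst).clm_apply continuous_snd))

theorem continuous_gap (m : ℝ) : Continuous (gap (N := N) m) :=
  IsCompact.continuous_sSup (isCompact_closedBall _ _)
    (show Continuous fun p : Mat N × (Vec N) => m * ‖p.2‖ ^ 2 - qf p.1 p.2 from
      (continuous_const.mul (continuous_snd.norm.pow 2)).sub continuous_qf)

theorem gap_spec (m : ℝ) (A : Mat N) :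
    (∀ v : (Vec N), ‖v‖ ≤ 1 → m * ‖v‖ ^ 2 - qf A v ≤ gap m A) ∧
      ∃ v : (Vec N), ‖v‖ ≤ 1 ∧ gap m A = m * ‖v‖ ^ 2 - qf A v := by
  have hc : Continuous fun v : (Vec N) => m * ‖v‖ ^ 2 - qf A v :=
    (continuous_const.mul (continuous_norm.pow 2)).sub (continuous_qf.comp
      (f := fun v : (Vec N) => (A, v)) (continuous_const.prodMk continuous_id))
  obtain ⟨v, hv, he, hle⟩ := (isCompact_closedBall (0 : (Vec N)) 1).exists_sSup_image_eq_and_ge
    ⟨0, by simp⟩ hc.continuousOn
  refine ⟨fun w hw => ?_, v, by simpa using hv, he⟩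
  rw [gap, he]; exact hle w (by simpa using hw)

theorem gap_nonneg (m : ℝ) (A : Mat N) : 0 ≤ gap m A := by
  simpa [qf] using (gap_spec m A).1 0 (by simp)

theorem le_qf_add_gap (m : ℝ) (A : Mat N) (v : (Vec N)) :
    m * ‖v‖ ^ 2 ≤ qf A v + gap m A * ‖v‖ ^ 2 := by
  have := qf_le_of_unit (A := m • 1 - A) (r := gap m A) (fun u hu => by
    have := (gap_spec m A).1 u hu.le
    rwa [qf_sub, qf_smul_one]) v
  rw [qf_sub, qf_smul_one] at this
  linarith

theorem gap_le {m : ℝ} (hm : 0 ≤ m) (A : Mat N) : gap m A ≤ m + ‖A‖ := by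
  obtain ⟨v, hv, he⟩ := (gap_spec m A).2
  have h1 := (abs_le.1 (abs_qf_le A v)).1
  have h2 : ‖v‖ ^ 2 ≤ 1 := pow_le_one₀ (norm_nonneg _) hv
  rw [he]
  nlinarith [norm_nonneg A]

/-- `A` pushed up to be `≥ m`. -/
noncomputable def push (m : ℝ) (A : Mat N) : Mat N := A + gap m A • (1 : Mat N)

theorem continuous_push (m : ℝ) : Continuous (push (N := N) m) :=
  continuous_id.add ((continuous_gap m).smul continuous_const)

theorem star_push {m : ℝ} {A : Mat N} (h : star A = A) : star (push m A) = push m A := by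
  simp [push, h]

theorem posDef_push {m : ℝ} (hm : 0 < m) {A : Mat N} (h : star A = A) : (push m A).PosDef := by
  refine posDef_of_qf (star_push h) hm fun v => ?_
  rw [push, qf_add, qf_smul_one]
  exact le_qf_add_gap m A v

theorem norm_one_le : ‖(1 : Mat N)‖ ≤ 1 := by
  rw [← norm_op, op, map_one]
  exact ContinuousLinearMap.norm_id_le

theorem norm_smul_one_le {r : ℝ} (hr : 0 ≤ r) : ‖r • (1 : Mat N)‖ ≤ r := by
  rw [norm_smul, Real.norm_of_nonneg hr]
  exact mul_le_of_le_one_right hr norm_one_le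

theorem norm_push_le {m : ℝ} (hm : 0 ≤ m) (A : Mat N) : ‖push m A‖ ≤ 2 * ‖A‖ + m := by
  calc ‖push m A‖ ≤ ‖A‖ + ‖gap m A • (1 : Mat N)‖ := norm_add_le _ _
    _ ≤ ‖A‖ + gap m A := by gcongr; exact norm_smul_one_le (gap_nonneg _ _)
    _ ≤ _ := by linarith [gap_le hm A]

/-- If the gap is positive it is attained at a vector where the pushed matrix is `m`. -/
theorem exists_low {m : ℝ} {A : Mat N} (hA : star A = A) (hg : 0 < gap m A) :
    ∃ u : (Vec N), ‖u‖ = 1 ∧ qf A u = m - gap m A ∧ qf (push m A * push m A) u = m ^ 2 := by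
  obtain ⟨u, hu, he⟩ := (gap_spec m A).2
  have h1 := le_qf_add_gap m A u
  have hu1 : ‖u‖ = 1 := by
    by_contra hne
    have : ‖u‖ ^ 2 < 1 := pow_lt_one₀ (norm_nonneg _) (lt_of_le_of_ne hu hne) two_ne_zero
    nlinarith
  rw [hu1] at he
  refine ⟨u, hu1, by linarith, ?_⟩
  have hs : star (push m A - m • (1 : Mat N)) = push m A - m • (1 : Mat N) := by
    simp [star_push hA]
  have hz := op_eq_zero_of_qf hs (fun v => by
      rw [qf_sub, push, qf_add, qf_smul_one, qf_smul_one]
      linarith [le_qf_add_gap m A v])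
    (u := u) (by
      rw [qf_sub, push, qf_add, qf_smul_one, qf_smul_one, hu1]
      linarith)
  have h2 : op (push m A) u = (m : ℂ) • u := by
    have : op (push m A - m • (1 : Mat N)) u = op (push m A) u - op (m • (1 : Mat N)) u := by
      simp [op]
    rw [hz, real_smul_op] at this
    simpa [op] using (sub_eq_zero.1 this.symm)
  rw [qf_sq (star_push hA), h2, norm_smul, hu1, mul_one, Complex.norm_real, Real.norm_eq_abs,
    sq_abs]

/-- Radial clipping. -/
noncomputable def clip (R : ℝ) (G : Mat N) : Mat N := (R / max R ‖G‖) • G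

theorem star_clip (R : ℝ) (G : Mat N) : clip R (star G) = star (clip R G) := by
  simp [clip, norm_star]

theorem clip_of_le {R : ℝ} (hR : 0 < R) {G : Mat N} (h : ‖G‖ ≤ R) : clip R G = G := by
  rw [clip, max_eq_left h, div_self hR.ne', one_smul]

theorem norm_clip_le {R : ℝ} (hR : 0 < R) (G : Mat N) : ‖clip R G‖ ≤ R := by
  have hm : 0 < max R ‖G‖ := lt_max_of_lt_left hR
  rw [clip, norm_smul, Real.norm_of_nonneg (by positivity), div_mul_eq_mul_div,
    div_le_iff₀ hm]
  exact mul_le_mul_of_nonneg_left (le_max_right _ _) hR.le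

theorem norm_clip_sub_le {R : ℝ} (hR : 0 < R) (G H : Mat N) :
    ‖clip R G - clip R H‖ ≤ 2 * ‖G - H‖ := by
  set p := max R ‖G‖
  set q := max R ‖H‖
  have hp : 0 < p := lt_max_of_lt_left hR
  have hq : 0 < q := lt_max_of_lt_left hR
  have e : clip R G - clip R H = (R / p) • (G - H) + (R / p - R / q) • H := by
    simp only [clip, p, q, smul_sub, sub_smul]; abel
  have h1 : ‖(R / p) • (G - H)‖ ≤ ‖G - H‖ := by
    rw [norm_smul, Real.norm_of_nonneg (by positivity)]
    exact mul_le_of_le_one_left (norm_nonneg _) ((div_le_one hp).2 (le_max_left _ _))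
  have h2 : ‖(R / p - R / q) • H‖ ≤ ‖G - H‖ := by
    have h3 : |p - q| ≤ ‖G - H‖ := by
      refine le_trans ?_ (abs_norm_sub_norm_le G H)
      simpa [p, q, max_comm R] using abs_max_sub_max_le_abs ‖G‖ ‖H‖ R
    have e2 : R / p - R / q = (R / p) * ((q - p) / q) := by field_simp
    rw [norm_smul, Real.norm_eq_abs, e2, abs_mul, abs_of_nonneg (by positivity : 0 ≤ R / p),
      abs_div, abs_of_pos hq, mul_assoc, abs_sub_comm]
    calc R / p * (|p - q| / q * ‖H‖) ≤ 1 * (|p - q| * 1) := by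
          refine mul_le_mul ((div_le_one hp).2 (le_max_left _ _)) ?_ (by positivity) zero_le_one
          rw [div_mul_eq_mul_div, mul_one, div_le_iff₀ hq]
          exact mul_le_mul_of_nonneg_left (le_max_right _ _) (abs_nonneg _)
      _ ≤ _ := by linarith
  rw [e]
  linarith [norm_add_le ((R / p) • (G - H)) ((R / p - R / q) • H)]

theorem continuous_clip {R : ℝ} (hR : 0 < R) : Continuous (clip (N := N) R) :=
  ((continuous_const.div (continuous_const.max continuous_norm)
    fun _ => (lt_max_of_lt_left hR).ne')).smul continuous_id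

/-- The switch. -/
noncomputable def switch (R₀ : ℝ) (A : Mat N) : ℝ := max 0 (min 1 (R₀ - ‖A‖))

theorem switch_nonneg (R₀ : ℝ) (A : Mat N) : 0 ≤ switch R₀ A := le_max_left _ _

theorem switch_le_one (R₀ : ℝ) (A : Mat N) : switch R₀ A ≤ 1 :=
  max_le zero_le_one (min_le_left _ _)

theorem switch_eq_one {R₀ : ℝ} {A : Mat N} (h : ‖A‖ ≤ R₀ - 1) : switch R₀ A = 1 := by
  rw [switch, min_eq_left (by linarith), max_eq_right zero_le_one]

theorem switch_eq_zero {R₀ : ℝ} {A : Mat N} (h : R₀ ≤ ‖A‖) : switch R₀ A = 0 := by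
  rw [switch, max_eq_left]
  exact (min_le_right _ _).trans (by linarith)

theorem continuous_switch (R₀ : ℝ) : Continuous (switch (N := N) R₀) := by
  unfold switch; fun_prop

/-- The cut-off field, with `H` standing for the clipped `G`. -/
noncomputable def body (m c' R₀ : ℝ) (W : Mat N → ℝ → Mat N) (X : Mat N) (x : ℝ) (H : Mat N) :
    Mat N :=
  switch R₀ (re X) • (push m (re X) * push m (re X) - H * H - W (push m (re X)) x)
    - ((1 - switch R₀ (re X)) * c') • (1 : Mat N)

theorem qf_body (m c' R₀ : ℝ) (W : Mat N → ℝ → Mat N) (X : Mat N) (x : ℝ) (H : Mat N) (v : (Vec N)) :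
    qf (body m c' R₀ W X x H) v =
      switch R₀ (re X) * (qf (push m (re X) * push m (re X)) v - qf (H * H) v
        - qf (W (push m (re X)) x) v) - (1 - switch R₀ (re X)) * c' * ‖v‖ ^ 2 := by
  rw [body, qf_sub, qf_smul, qf_sub, qf_sub, qf_smul_one]

/-! ### Differential equations -/

theorem sub_le_of_deriv_le {a b C : ℝ} {f f' : ℝ → ℝ}
    (hf : ∀ x ∈ Icc a b, HasDerivWithinAt f (f' x) (Icc a b) x) (hC : ∀ x ∈ Icc a b, f' x ≤ C)
    {x y : ℝ} (hx : x ∈ Icc a b) (hy : y ∈ Icc a b) (hxy : x ≤ y) :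
    f y - f x ≤ C * (y - x) := by
  have h : MonotoneOn (fun t => C * t - f t) (Icc a b) := by
    refine monotoneOn_of_hasDerivWithinAt_nonneg (convex_Icc a b) (f' := fun t => C - f' t)
      ((continuousOn_const.mul continuousOn_id).sub fun t ht => (hf t ht).continuousWithinAt)
      (fun t ht => ?_) fun t ht => by
        have := hC t (interior_subset ht); linarith
    have h1 := ((hasDerivWithinAt_id t (Icc a b)).const_mul C).sub (hf t (interior_subset ht))
    rw [mul_one] at h1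
    exact h1.mono interior_subset
  have := h hx hy hxy
  simp only at this
  linarith

theorem le_of_riccati {a b k : ℝ} (hk : 0 ≤ k) {f f' : ℝ → ℝ}
    (hf : ∀ x ∈ Icc a b, HasDerivWithinAt f (f' x) (Icc a b) x)
    (hb : ∀ x ∈ Icc a b, k ≤ |f x| → f' x ≤ 0) (ha : f a ≤ k) (hb' : -k ≤ f b) :
    ∀ x ∈ Icc a b, |f x| ≤ k := by
  have gen : ∀ {g g' : ℝ → ℝ}, (∀ x ∈ Icc a b, HasDerivWithinAt g (g' x) (Icc a b) x) →
      (∀ x ∈ Icc a b, k ≤ |g x| → g' x ≤ 0) → g a ≤ k → ∀ x ∈ Icc a b, g x ≤ k := by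
    intro g g' hg hgb hga x hx
    refine le_of_forall_pos_le_add fun ε hε => ?_
    have h := image_le_of_deriv_right_lt_deriv_boundary'
      (B := fun t => k + ε / (b - a + 1) * (t - a)) (B' := fun _ => ε / (b - a + 1))
      (fun t ht => (hg t ht).continuousWithinAt)
      (fun t ht => (hg t (Ico_subset_Icc_self ht)).mono_of_mem_nhdsWithin
        (Icc_mem_nhdsGE_of_mem ht))
      (by simpa using hga) (by fun_prop)
      (fun t _ => by
        simpa using ((((hasDerivWithinAt_id t (Ici t)).sub_const a).const_mul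
          (ε / (b - a + 1))).const_add k))
      (fun t ht he => by
        have h0 : 0 ≤ ε / (b - a + 1) * (t - a) :=
          mul_nonneg (div_nonneg hε.le (by linarith [ht.1, ht.2])) (by linarith [ht.1])
        have := hgb t (Ico_subset_Icc_self ht) (by
          rw [he, abs_of_nonneg (by linarith)]; linarith)
        exact this.trans_lt (div_pos hε (by linarith [ht.1, ht.2]))) hx
    refine h.trans (add_le_add le_rfl ?_)
    rw [div_mul_eq_mul_div, div_le_iff₀ (by linarith [hx.1, hx.2])]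
    nlinarith [hx.1, hx.2]
  intro x hx
  have hrev : MapsTo (fun t => a + b - t) (Icc a b) (Icc a b) :=
    fun t ht => ⟨by linarith [ht.2], by linarith [ht.1]⟩
  refine abs_le.2 ⟨?_, gen hf hb ha x hx⟩
  have := gen (g := fun t => -f (a + b - t)) (g' := fun t => f' (a + b - t))
    (fun t ht => by
      have := ((hf _ (hrev ht)).comp t ((hasDerivWithinAt_id t _).const_sub (a + b)) hrev).neg
      rw [mul_neg_one, neg_neg] at this
      exact this)
    (fun t ht h => hb _ (hrev ht) (by simpa using h))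
    (by simpa using (neg_le.1 hb')) (a + b - x) (hrev hx)
  simp only [sub_sub_cancel] at this
  linarith

variable {E : Type*} [NormedAddCommGroup E] [NormedSpace ℝ E] [CompleteSpace E]

omit [CompleteSpace E] in
theorem hasDeriv_Ici {a b : ℝ} {f : ℝ → E} {f' : ℝ → E}
    (hf : ∀ x ∈ Icc a b, HasDerivWithinAt f (f' x) (Icc a b) x) {x : ℝ} (hx : x ∈ Ico a b) :
    HasDerivWithinAt f (f' x) (Ici x) x :=
  (hf x (Ico_subset_Icc_self hx)).mono_of_mem_nhdsWithin (Icc_mem_nhdsGE_of_mem hx)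

omit [CompleteSpace E] in
theorem traj_unique {a b : ℝ} {v : ℝ → E → E} {L : ℝ≥0} (hL : ∀ t, LipschitzWith L (v t))
    {f g : ℝ → E} (hf : ∀ x ∈ Icc a b, HasDerivWithinAt f (v x (f x)) (Icc a b) x)
    (hg : ∀ x ∈ Icc a b, HasDerivWithinAt g (v x (g x)) (Icc a b) x) (h : f a = g a) :
    ∀ x ∈ Icc a b, f x = g x := fun x hx => by
  have := dist_le_of_trajectories_ODE hL (δ := 0) (fun t ht => (hf t ht).continuousWithinAt)
    (fun t ht => hasDeriv_Ici hf ht) (fun t ht => (hg t ht).continuousWithinAt)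
    (fun t ht => hasDeriv_Ici hg ht) (by rw [h, dist_self]) x hx
  rw [zero_mul] at this
  exact dist_le_zero.1 this

theorem exists_flow {X : Type*} [TopologicalSpace X] {a b C : ℝ} (hab : a ≤ b) (hC : 0 ≤ C)
    {L : ℝ≥0} (Φ : X → ℝ → E → E) (hbound : ∀ p x G, ‖Φ p x G‖ ≤ C)
    (hL : ∀ p x, LipschitzWith L (Φ p x)) (hcont : ∀ p G, Continuous fun x => Φ p x G)
    (hunif : ∀ p₀ : X, ∀ ε > 0, ∀ᶠ p in 𝓝 p₀, ∀ x ∈ Icc a b, ∀ G, dist (Φ p x G) (Φ p₀ x G) ≤ ε)
    (init : X → E) (hinit : Continuous init) :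
    ∃ Y : X → ℝ → E, (∀ p, Y p a = init p) ∧
      (∀ p, ∀ x ∈ Icc a b, HasDerivWithinAt (Y p) (Φ p x (Y p x)) (Icc a b) x) ∧
      Continuous fun p => Y p b := by
  have ex : ∀ p, ∃ y : ℝ → E, y a = init p ∧
      ∀ x ∈ Icc a b, HasDerivWithinAt y (Φ p x (y x)) (Icc a b) x := by
    intro p
    have hP : IsPicardLindelof (Φ p) (⟨a, left_mem_Icc.2 hab⟩ : Icc a b) (init p)
        ⟨C * (b - a), mul_nonneg hC (sub_nonneg.2 hab)⟩ 0 ⟨C, hC⟩ L := by
      refine ⟨fun t _ => (hL p t).lipschitzOnWith, fun G _ => (hcont p G).continuousOn,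
        fun t _ G _ => hbound p t G, ?_⟩
      show C * max (b - a) (a - a) ≤ C * (b - a) - 0
      rw [max_eq_left (by linarith)]; simp
    exact hP.exists_eq_forall_mem_Icc_hasDerivWithinAt₀
  choose Y hY0 hY using ex
  refine ⟨Y, hY0, hY, continuous_iff_continuousAt.2 fun p₀ => ?_⟩
  rw [ContinuousAt, Metric.tendsto_nhds]
  intro η hη
  set K : ℝ≥0 := L + 1
  have hK : (K : ℝ) ≠ 0 := by positivity
  have hg : Continuous fun δ : ℝ => gronwallBound δ K δ (b - a) := by
    rw [funext fun δ => congrFun (gronwallBound_of_K_ne_0 (δ := δ) (ε := δ) hK) (b - a)]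
    fun_prop
  obtain ⟨δ, hδ, hsmall⟩ : ∃ δ > 0, gronwallBound δ K δ (b - a) < η := by
    have := hg.tendsto 0
    rw [gronwallBound_ε0_δ0] at this
    have h2 : ∀ᶠ δ in 𝓝[>] (0:ℝ), gronwallBound δ K δ (b - a) < η :=
      nhdsWithin_le_nhds (this.eventually (gt_mem_nhds hη))
    obtain ⟨δ, h, hd⟩ := (h2.and self_mem_nhdsWithin).exists
    exact ⟨δ, hd, h⟩
  filter_upwards [hunif p₀ δ hδ, Metric.tendsto_nhds.1 (hinit.tendsto p₀) δ hδ] with p hp hp'
  refine lt_of_le_of_lt ?_ hsmall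
  have := dist_le_of_approx_trajectories_ODE (v := Φ p₀) (K := K) (εf := δ) (εg := 0) (δ := δ)
    (fun t => (hL p₀ t).weaken (by simp [K])) (fun t ht => (hY p t ht).continuousWithinAt)
    (fun t ht => hasDeriv_Ici (hY p) ht) (fun t ht => hp t (Ico_subset_Icc_self ht) _)
    (fun t ht => (hY p₀ t ht).continuousWithinAt) (fun t ht => hasDeriv_Ici (hY p₀) ht)
    (fun t ht => by rw [dist_self]) (by rw [hY0, hY0]; exact hp'.le) b (right_mem_Icc.2 hab)
  simpa using this

/-! ### The fixed point -/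

/-- The data at a fixed point: the cut-off flow leads from the Hermitian `K` to `-K`. -/
structure Fix (a b m c' R₀ R : ℝ) (W : Mat N → ℝ → Mat N) (K : Mat N) (G : ℝ → Mat N) : Prop where
  star_K : star K = K
  left : G a = K
  right : G b = -K
  herm : ∀ x ∈ Icc a b, star (G x) = G x
  deriv : ∀ x ∈ Icc a b, HasDerivWithinAt G (body m c' R₀ W K x (clip R (G x))) (Icc a b) x

theorem continuous_body (m c' R₀ : ℝ) {W : Mat N → ℝ → Mat N}
    (hWc : Continuous fun p : Mat N × ℝ => W (push m (re p.1)) p.2) :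
    Continuous fun p : Mat N × ℝ × Mat N => body m c' R₀ W p.1 p.2.1 p.2.2 := by
  have hr : Continuous fun p : Mat N × ℝ × Mat N => re p.1 := continuous_re.comp continuous_fst
  have hp : Continuous fun p : Mat N × ℝ × Mat N => push m (re p.1) :=
    (continuous_push m).comp hr
  have hs : Continuous fun p : Mat N × ℝ × Mat N => switch R₀ (re p.1) :=
    (continuous_switch R₀).comp hr
  have hw : Continuous fun p : Mat N × ℝ × Mat N => W (push m (re p.1)) p.2.1 :=
    hWc.comp (f := fun p : Mat N × ℝ × Mat N => (p.1, p.2.1))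
      (continuous_fst.prodMk (continuous_fst.comp continuous_snd))
  have hH : Continuous fun p : Mat N × ℝ × Mat N => p.2.2 := continuous_snd.comp continuous_snd
  unfold body
  exact (hs.smul (((hp.mul hp).sub (hH.mul hH)).sub hw)).sub
    (((continuous_const.sub hs).mul continuous_const).smul continuous_const)

theorem norm_body_le {m c' R₀ R M' : ℝ} (hm : 0 ≤ m) (hc' : 0 ≤ c') (hR : 0 < R)
    (hM' : 0 ≤ M') {W : Mat N → ℝ → Mat N} (X : Mat N) (x : ℝ) (G : Mat N)
    (hW : ‖W (push m (re X)) x‖ ≤ M') :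
    ‖body m c' R₀ W X x (clip R G)‖ ≤ (2 * R₀ + m) ^ 2 + R ^ 2 + M' + c' := by
  set s := switch R₀ (re X) with hs
  have h1 : ‖s • (push m (re X) * push m (re X) - clip R G * clip R G - W (push m (re X)) x)‖
      ≤ (2 * R₀ + m) ^ 2 + R ^ 2 + M' := by
    by_cases hsm : R₀ ≤ ‖re X‖
    · rw [hs, switch_eq_zero hsm, zero_smul, norm_zero]; positivity
    · rw [norm_smul, Real.norm_of_nonneg (switch_nonneg _ _)]
      refine (mul_le_of_le_one_left (norm_nonneg _) (switch_le_one _ _)).trans ?_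
      refine (norm_sub_le _ _).trans (add_le_add ((norm_sub_le _ _).trans (add_le_add ?_ ?_)) hW)
      · refine (norm_mul_le _ _).trans ?_
        rw [← sq]; gcongr
        exact (norm_push_le hm _).trans (by linarith [not_le.1 hsm])
      · refine (norm_mul_le _ _).trans ?_
        rw [← sq]; gcongr
        exact norm_clip_le hR G
  refine (norm_sub_le _ _).trans (add_le_add h1 ?_)
  refine (norm_smul_one_le (mul_nonneg (sub_nonneg.2 (switch_le_one _ _)) hc')).trans ?_
  exact mul_le_of_le_one_left hc' (by linarith [switch_nonneg R₀ (re X)])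

theorem norm_body_sub_le (m c' R₀ : ℝ) {R : ℝ} (hR : 0 < R) (W : Mat N → ℝ → Mat N) (X : Mat N)
    (x : ℝ) (G H : Mat N) :
    ‖body m c' R₀ W X x (clip R G) - body m c' R₀ W X x (clip R H)‖ ≤ 4 * R * ‖G - H‖ := by
  set s := switch R₀ (re X) with hs
  have e : body m c' R₀ W X x (clip R G) - body m c' R₀ W X x (clip R H)
      = s • (clip R H * clip R H - clip R G * clip R G) := by
    simp only [body, smul_sub, s]; abel
  rw [e, norm_smul, Real.norm_of_nonneg (switch_nonneg _ _)]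
  refine (mul_le_of_le_one_left (norm_nonneg _) (switch_le_one _ _)).trans ?_
  have e2 : clip R H * clip R H - clip R G * clip R G
      = clip R H * (clip R H - clip R G) + (clip R H - clip R G) * clip R G := by
    noncomm_ring
  have hd := norm_clip_sub_le hR H G
  rw [norm_sub_rev H G] at hd
  rw [e2]
  refine (norm_add_le _ _).trans ((add_le_add ((norm_mul_le _ _).trans
    (mul_le_mul (norm_clip_le hR H) hd (norm_nonneg _) hR.le))
    ((norm_mul_le _ _).trans (mul_le_mul hd (norm_clip_le hR G) (norm_nonneg _)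
      (by positivity)))).trans (le_of_eq ?_))
  ring

theorem star_body (m c' R₀ R : ℝ) (W : Mat N → ℝ → Mat N) (X : Mat N) (x : ℝ) (G : Mat N)
    (hW : star (W (push m (re X)) x) = W (push m (re X)) x) :
    star (body m c' R₀ W X x (clip R G)) = body m c' R₀ W X x (clip R (star G)) := by
  simp [body, star_clip, hW, star_push (star_re X)]

theorem exists_fix {a b m c' M' R₀ R : ℝ} (hab : a < b) (hm : 0 < m) (hc' : 0 < c') (hM' : 0 < M')
    (hR₀pos : 0 < R₀) (hR : 0 < R) (W : Mat N → ℝ → Mat N)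
    (hW : ∀ X x, (W (push m (re X)) x).PosSemidef ∧ ‖W (push m (re X)) x‖ ≤ M')
    (hWc : Continuous fun p : Mat N × ℝ => W (push m (re p.1)) p.2) :
    ∃ K G, Fix a b m c' R₀ R W K G := by
  set L : ℝ := b - a with hLdef
  have hL : 0 < L := sub_pos.2 hab
  set Φ : Mat N → ℝ → Mat N → Mat N := fun X x G => body m c' R₀ W X x (clip R G)
  have hbodyc := continuous_body m c' R₀ hWc
  set C : ℝ := (2 * R₀ + m) ^ 2 + R ^ 2 + M' + c' with hCdef
  have hC : 0 ≤ C := by positivity
  have hbound : ∀ X x G, ‖Φ X x G‖ ≤ C := fun X x G =>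
    norm_body_le hm.le hc'.le hR hM'.le X x G (hW X x).2
  set Λ : ℝ≥0 := ⟨4 * R, by positivity⟩
  have hlip : ∀ X x, LipschitzWith Λ (Φ X x) := fun X x =>
    LipschitzWith.of_dist_le_mul fun G H => by
      rw [dist_eq_norm, dist_eq_norm]
      exact norm_body_sub_le m c' R₀ hR W X x G H
  have hcont : ∀ X G, Continuous fun x => Φ X x G := fun X G =>
    hbodyc.comp (f := fun x : ℝ => ((X, x, clip R G) : Mat N × ℝ × Mat N))
      (continuous_const.prodMk (continuous_id.prodMk continuous_const))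
  have hunif : ∀ X₀ : Mat N, ∀ ε > 0, ∀ᶠ X in 𝓝 X₀, ∀ x ∈ Icc a b, ∀ G,
      dist (Φ X x G) (Φ X₀ x G) ≤ ε := by
    intro X₀ ε hε
    have := (isCompact_Icc (a := a) (b := b)).prod (isCompact_closedBall (0 : Mat N) R)
    have hev := this.eventually_forall_of_forall_eventually (x₀ := X₀)
      (P := fun X p => dist (body m c' R₀ W X p.1 p.2) (body m c' R₀ W X₀ p.1 p.2) < ε)
      fun p _ => by
        have hcp : Continuous fun z : Mat N × (ℝ × Mat N) =>
            dist (body m c' R₀ W z.1 z.2.1 z.2.2) (body m c' R₀ W X₀ z.2.1 z.2.2) :=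
          hbodyc.dist (hbodyc.comp
            (f := fun z : Mat N × (ℝ × Mat N) => ((X₀, z.2) : Mat N × ℝ × Mat N))
            (continuous_const.prodMk continuous_snd))
        exact (hcp.tendsto (X₀, p)).eventually (gt_mem_nhds (by simpa using hε))
    filter_upwards [hev] with X hX x hx G
    exact (hX (x, clip R G) ⟨hx, by simpa using norm_clip_le hR G⟩).le
  obtain ⟨Y, hY0, hY, hYc⟩ := exists_flow hab.le hC Φ hbound hlip hcont hunif re continuous_re
  -- the fixed point
  set f : Mat N → Mat N := fun X => (2 : ℝ)⁻¹ • (re X - Y X b)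
  have hfb : ∀ X, ‖f X‖ ≤ C * L := by
    intro X
    have := norm_image_sub_le_of_norm_deriv_le_segment' (hY X)
      (fun x hx => hbound X x _) b (right_mem_Icc.2 hab.le)
    rw [hY0] at this
    rw [norm_smul, norm_sub_rev]
    norm_num
    have h0 : 0 ≤ C * L := by positivity
    linarith
  obtain ⟨K, -, hfix⟩ := Vale.Agent.P225.exists_fixedPoint_closedBall (c := (0 : Mat N))
    (r := C * L) (by positivity) (f := f)
    (((continuous_re.sub hYc).const_smul (2 : ℝ)⁻¹)).continuousOn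
    (fun X _ => by simpa using hfb X)
  -- the flow from a Hermitian matrix stays Hermitian
  have hherm : ∀ X, ∀ x ∈ Icc a b, star (Y X x) = Y X x := by
    intro X
    refine traj_unique (v := Φ X) (hlip X) (fun x hx => ?_) (hY X) (by rw [hY0, star_re])
    have h := (hY X x hx).star
    have hWs : star (W (push m (re X)) x) = W (push m (re X)) x := by
      rw [star_eq_conjTranspose]; exact (hW X x).1.1
    have e : star (Φ X x (Y X x)) = Φ X x (star (Y X x)) := star_body m c' R₀ R W X x _ hWs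
    rwa [e] at h
  have hKs : star K = K := by
    rw [← hfix]
    simp [f, star_re, hherm K b (right_mem_Icc.2 hab.le)]
  have hre : re K = K := re_of_star hKs
  have hKb : Y K b = -K := by
    have := hfix
    simp only [f, hre] at this
    have h2 : K - Y K b = (2 : ℝ) • K := by
      conv_rhs => rw [← this]
      simp
    rw [two_smul] at h2
    linear_combination (norm := abel) -h2
  refine ⟨K, Y K, hKs, (hY0 K).trans hre, hKb, hherm K, hY K⟩

variable {a b c m c' M' R₀ R : ℝ} {W : Mat N → ℝ → Mat N} {K : Mat N} {G : ℝ → Mat N}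

theorem Fix.deriv_qf (hF : Fix a b m c' R₀ R W K G) (v : (Vec N)) {x : ℝ} (hx : x ∈ Icc a b) :
    HasDerivWithinAt (fun t => qf (G t) v)
      (switch R₀ K * (qf (push m K * push m K) v - qf (clip R (G x) * clip R (G x)) v
        - qf (W (push m K) x) v) - (1 - switch R₀ K) * c' * ‖v‖ ^ 2) (Icc a b) x := by
  have := (qL v).hasFDerivAt.comp_hasDerivWithinAt x (hF.deriv x hx)
  simpa [Function.comp_def, qf_body, re_of_star hF.star_K] using this

theorem Fix.star_clip_eq (hF : Fix a b m c' R₀ R W K G) {x : ℝ} (hx : x ∈ Icc a b) :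
    star (clip R (G x)) = clip R (G x) := by
  rw [← star_clip, hF.herm x hx]

theorem Fix.gap_eq_zero (hF : Fix a b m c' R₀ R W K G) (hab : a < b) (hR : 0 < R)
    (hcL : c' * (b - a) = c) (hmc : 2 * m + (b - a) * m ^ 2 ≤ c)
    (hWc : Continuous fun x => W (push m K) x)
    (hVc : ∀ u : (Vec N), ‖u‖ = 1 → c ≤ ∫ x in a..b, qf (W (push m K) x) u) :
    gap m K = 0 := by
  have hKs := hF.star_K
  have hGa := hF.left
  have hKb := hF.right
  have hherm := hF.herm
  have hGs := fun x (hx : x ∈ Icc a b) => hF.star_clip_eq hx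
  have hq : ∀ (v : (Vec N)), ∀ x ∈ Icc a b, HasDerivWithinAt (fun t => qf (G t) v) _ (Icc a b) x :=
    fun v x hx => hF.deriv_qf v hx
  set s : ℝ := switch R₀ K with hsdef
  have hs0 : 0 ≤ s := switch_nonneg _ _
  have hs1 : s ≤ 1 := switch_le_one _ _
  by_contra hne
  obtain ⟨u, hu, hKu, hPu⟩ := exists_low hKs (lt_of_le_of_ne (gap_nonneg m K) (Ne.symm hne))
  have hGc : ContinuousOn G (Icc a b) := fun x hx => (hF.deriv x hx).continuousWithinAt
  have hdc : ContinuousOn (fun x => s * (qf (push m K * push m K) u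
      - qf (clip R (G x) * clip R (G x)) u - qf (W (push m K) x) u) - (1 - s) * c' * ‖u‖ ^ 2)
      (Icc a b) := by
    have h1 : ContinuousOn (fun x => qf (clip R (G x) * clip R (G x)) u) (Icc a b) := by
      have := (continuous_clip hR).comp_continuousOn hGc
      exact (qL u).continuous.comp_continuousOn (this.mul this)
    have h2 : Continuous fun x => qf (W (push m K) x) u := (qL u).continuous.comp hWc
    exact (continuousOn_const.mul ((continuousOn_const.sub h1).sub h2.continuousOn)).sub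
      continuousOn_const
  have hftc := intervalIntegral.integral_eq_sub_of_hasDerivAt_of_le hab.le
    (fun x hx => (hq u x hx).continuousWithinAt)
    (fun x hx => (hq u x (Ioo_subset_Icc_self hx)).hasDerivAt (Icc_mem_nhds hx.1 hx.2))
    (hdc.intervalIntegrable_of_Icc hab.le)
  have hint : IntervalIntegrable (fun x => qf (W (push m K) x) u) volume a b :=
    ((qL u).continuous.comp hWc).intervalIntegrable a b
  have hVint : c ≤ ∫ x in a..b, qf (W (push m K) x) u := hVc u hu
  have hmono : qf (G b) u - qf (G a) u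
      ≤ ∫ x in a..b, ((s * m ^ 2 - (1 - s) * c') - s * qf (W (push m K) x) u) := by
    rw [← hftc]
    refine intervalIntegral.integral_mono_on hab.le (hdc.intervalIntegrable_of_Icc hab.le)
      (intervalIntegrable_const.sub (hint.const_mul s)) fun x hx => ?_
    have := sq_qf_le (hGs x hx) hu
    rw [hPu, hu]
    nlinarith [sq_nonneg (qf (clip R (G x)) u)]
  rw [intervalIntegral.integral_sub intervalIntegrable_const (hint.const_mul s),
    intervalIntegral.integral_const, intervalIntegral.integral_const_mul, hKb, hGa, qf_neg,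
    smul_eq_mul] at hmono
  have := gap_nonneg m K
  have hgpos : 0 < gap m K := lt_of_le_of_ne this (Ne.symm hne)
  rw [hKu] at hmono
  nlinarith [mul_le_mul_of_nonneg_left hVint hs0, hcL, mul_nonneg
    (sub_nonneg.2 hs1) (mul_nonneg (sub_nonneg.2 hab.le) (sq_nonneg m))]

theorem Fix.norm_lt (hF : Fix a b m c' R₀ R W K G) (hab : a < b) (hc : 0 < c)
    (hcL : c' * (b - a) = c) (hR₀ : c / 2 < R₀) : ‖K‖ < R₀ := by
  have hKs := hF.star_K
  have hGa := hF.left
  have hKb := hF.right
  have hherm := hF.herm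
  have hGs := fun x (hx : x ∈ Icc a b) => hF.star_clip_eq hx
  have hq : ∀ (v : (Vec N)), ∀ x ∈ Icc a b, HasDerivWithinAt (fun t => qf (G t) v) _ (Icc a b) x :=
    fun v x hx => hF.deriv_qf v hx
  set s : ℝ := switch R₀ K with hsdef
  have hs0 : 0 ≤ s := switch_nonneg _ _
  have hs1 : s ≤ 1 := switch_le_one _ _
  by_contra hge
  have hs : s = 0 := switch_eq_zero (not_lt.1 hge)
  have hKc : ‖K‖ ≤ c / 2 := by
    refine norm_le_of_qf hKs (by linarith) fun v => le_of_eq ?_
    have e1 : ∀ x ∈ Icc a b,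
        HasDerivWithinAt (fun t => qf (G t) v) (-(c' * ‖v‖ ^ 2)) (Icc a b) x := fun x hx => by
      simpa [hs] using hq v x hx
    have l1 := sub_le_of_deriv_le e1 (fun _ _ => le_rfl) (left_mem_Icc.2 hab.le)
      (right_mem_Icc.2 hab.le) hab.le
    have l2 := sub_le_of_deriv_le (fun x hx => (e1 x hx).neg) (fun _ _ => le_rfl)
      (left_mem_Icc.2 hab.le) (right_mem_Icc.2 hab.le) hab.le
    simp only [hKb, hGa, qf_neg, Pi.neg_apply] at l1 l2
    have : qf K v = c / 2 * ‖v‖ ^ 2 := by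
      rw [← hcL]; linarith
    rw [this, abs_of_nonneg (by positivity)]
  linarith [not_lt.1 hge]

theorem Fix.clip_eq (hF : Fix a b m c' R₀ R W K G) (hab : a < b) (hc' : 0 < c') (hR : 0 < R)
    (hPK : push m K = K) (hKlt : ‖K‖ < R₀) (hRR : R₀ + (b - a) * R₀ ^ 2 ≤ R)
    (hVK : ∀ x v, 0 ≤ qf (W K x) v ∧ qf (W K x) v ≤ M' * ‖v‖ ^ 2) :
    ∀ x ∈ Icc a b, clip R (G x) = G x := by
  have hKs := hF.star_K
  have hGa := hF.left
  have hKb := hF.right
  have hherm := hF.herm
  have hGs := fun x (hx : x ∈ Icc a b) => hF.star_clip_eq hx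
  have hq : ∀ (v : (Vec N)), ∀ x ∈ Icc a b, HasDerivWithinAt (fun t => qf (G t) v) _ (Icc a b) x :=
    fun v x hx => hF.deriv_qf v hx
  set s : ℝ := switch R₀ K with hsdef
  have hs0 : 0 ≤ s := switch_nonneg _ _
  have hs1 : s ≤ 1 := switch_le_one _ _
  rw [hPK] at hq
  intro x hx
  refine clip_of_le hR (norm_le_of_qf (hherm x hx) hR.le (abs_qf_le_of_unit fun u hu => ?_))
  have hd : ∀ y ∈ Icc a b,
      s * (qf (K * K) u - qf (clip R (G y) * clip R (G y)) u - qf (W K y) u)
        - (1 - s) * c' * ‖u‖ ^ 2 ≤ ‖K‖ ^ 2 := fun y hy => by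
    have h1 := qf_sq_le hKs le_rfl hu
    have h2 := sq_qf_le (hGs y hy) hu
    have h3 := (hVK y u).1
    rw [hu]
    nlinarith [sq_nonneg (qf (clip R (G y)) u), sq_nonneg ‖K‖,
      mul_nonneg (sub_nonneg.2 hs1) hc'.le]
  have l1 := sub_le_of_deriv_le (hq u) hd (left_mem_Icc.2 hab.le) hx hx.1
  have l2 := sub_le_of_deriv_le (hq u) hd hx (right_mem_Icc.2 hab.le) hx.2
  simp only [hKb, hGa, qf_neg] at l1 l2
  have h4 := abs_le.1 (abs_qf_le K u)
  rw [hu, one_pow, mul_one] at h4
  have h5 : ‖K‖ ^ 2 ≤ R₀ ^ 2 := pow_le_pow_left₀ (norm_nonneg _) hKlt.le 2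
  have h6 : ‖K‖ ^ 2 * (x - a) ≤ (b - a) * R₀ ^ 2 := by
    nlinarith [mul_le_mul_of_nonneg_left h5 (sub_nonneg.2 hab.le), hx.2, sq_nonneg ‖K‖]
  have h7 : ‖K‖ ^ 2 * (b - x) ≤ (b - a) * R₀ ^ 2 := by
    nlinarith [mul_le_mul_of_nonneg_left h5 (sub_nonneg.2 hab.le), hx.1, sq_nonneg ‖K‖]
  exact abs_le.2 ⟨by linarith, by linarith⟩

theorem Fix.norm_le (hF : Fix a b m c' R₀ R W K G) (hab : a < b) (hc' : 0 < c') (hcM : c' ≤ M')
    {k₁ : ℝ} (hk₁ : (b - a) * M' / 2 ≤ k₁) (hk₁pos : 0 < k₁)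
    (hPK : push m K = K) (hK : K.PosDef) (hclip : ∀ x ∈ Icc a b, clip R (G x) = G x)
    (hVK : ∀ x v, 0 ≤ qf (W K x) v ∧ qf (W K x) v ≤ M' * ‖v‖ ^ 2) : ‖K‖ ≤ k₁ := by
  have hKs := hF.star_K
  have hGa := hF.left
  have hKb := hF.right
  have hherm := hF.herm
  have hGs := fun x (hx : x ∈ Icc a b) => hF.star_clip_eq hx
  have hq : ∀ (v : (Vec N)), ∀ x ∈ Icc a b, HasDerivWithinAt (fun t => qf (G t) v) _ (Icc a b) x :=
    fun v x hx => hF.deriv_qf v hx
  set s : ℝ := switch R₀ K with hsdef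
  have hs0 : 0 ≤ s := switch_nonneg _ _
  have hs1 : s ≤ 1 := switch_le_one _ _
  rw [hPK] at hq
  obtain ⟨hsup, u, hu, he⟩ := (gap_spec 0 (-K))
  set k := gap 0 (-K) with hk
  simp only [zero_mul, qf_neg, zero_sub, neg_neg] at hsup he
  have hk0 : 0 ≤ k := gap_nonneg _ _
  have hunit : ∀ w, ‖w‖ = 1 → |qf K w| ≤ k := fun w hw => by
    have h1 := hsup w hw.le
    rw [abs_of_nonneg (qf_nonneg hK.posSemidef w)]
    exact h1
  have hKk : ‖K‖ ≤ k := norm_le_of_qf hKs hk0 (abs_qf_le_of_unit hunit)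
  by_contra hlt
  have hkpos : 0 < k := by linarith [not_le.1 hlt]
  have hu1 : ‖u‖ = 1 := by
    by_contra hne
    have : ‖u‖ ^ 2 < 1 := pow_lt_one₀ (norm_nonneg _) (lt_of_le_of_ne hu hne) two_ne_zero
    have h2 := (abs_le.1 (abs_qf_le_of_unit hunit u)).2
    nlinarith
  have hGk : ∀ x ∈ Icc a b, ∀ w, ‖w‖ = 1 → |qf (G x) w| ≤ k := by
    intro x hx w hw
    refine le_of_riccati hk0 (hq w) (fun y hy hky => ?_) ?_ ?_ x hx
    · have h1 := qf_sq_le hKs hKk hw
      have h2 := sq_qf_le (hGs y hy) hw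
      rw [hclip y hy] at h2 ⊢
      have h3 := (hVK y w).1
      have h4 : k ^ 2 ≤ qf (G y) w ^ 2 := by
        rw [← sq_abs (qf (G y) w)]; exact pow_le_pow_left₀ hk0 hky 2
      rw [hw]
      nlinarith [mul_nonneg (sub_nonneg.2 hs1) hc'.le]
    · simp only [hGa]; exact (le_abs_self _).trans (hunit w hw)
    · simp only [hKb, qf_neg, neg_le_neg_iff]; exact (le_abs_self _).trans (hunit w hw)
  have hGn : ∀ x ∈ Icc a b, ‖G x‖ ≤ k := fun x hx =>
    norm_le_of_qf (hherm x hx) hk0 (abs_qf_le_of_unit (hGk x hx))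
  have l := sub_le_of_deriv_le (fun x hx => (hq u x hx).neg) (C := M') (fun x hx => by
      have h1 := qf_sq_le (hherm x hx) (hGn x hx) hu1
      have h2 := sq_qf_le hKs hu1
      have h3 := (hVK x u).2
      rw [hclip x hx, hu1] at *
      rw [← he] at h2
      have h4 := hcM
      nlinarith [mul_nonneg hs0 (sub_nonneg.2 (h1.trans h2)),
        mul_le_mul_of_nonneg_left h4 (sub_nonneg.2 hs1)])
    (left_mem_Icc.2 hab.le) (right_mem_Icc.2 hab.le) hab.le
  simp only [hKb, hGa, qf_neg, Pi.neg_apply, ← he] at l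
  linarith [not_le.1 hlt]

end Shoot

open Shoot in
/-- Every family of potentials has a self-consistent flip. -/
theorem shoot : ShootStmt := by
  intro N a b c M V hab hc hV hVM hVc
  set L : ℝ := b - a with hLdef
  have hL : 0 < L := sub_pos.2 hab
  set c' : ℝ := c / L with hc'def
  have hc' : 0 < c' := div_pos hc hL
  have hcL : c' * (b - a) = c := div_mul_cancel₀ _ hL.ne'
  set M' : ℝ := max M c' with hM'def
  have hM' : 0 < M' := lt_max_of_lt_right hc'
  set m : ℝ := min 1 (c / (2 + L)) with hmdef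
  have hm : 0 < m := lt_min one_pos (div_pos hc (by linarith))
  have hmc : 2 * m + (b - a) * m ^ 2 ≤ c := by
    have h1 : m * (2 + L) ≤ c := (le_div_iff₀ (by linarith)).1 (min_le_right _ _)
    have h2 : m ^ 2 ≤ m := pow_le_of_le_one hm.le (min_le_left _ _) two_ne_zero
    nlinarith
  set k₁ : ℝ := max (L * M' / 2) (c / 2) with hk₁
  have hk₁c : c / 2 ≤ k₁ := le_max_right _ _
  set R₀ : ℝ := k₁ + 2 with hR₀
  set R : ℝ := R₀ + L * R₀ ^ 2 + 1 with hRdef
  have hR₀pos : 0 < R₀ := by linarith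
  have hR : 0 < R := by positivity
  set cl : ℝ → ℝ := fun x => max a (min b x)
  have hcl : ∀ x, cl x ∈ Icc a b :=
    fun x => ⟨le_max_left _ _, max_le hab.le (min_le_left _ _)⟩
  have hcl_id : ∀ x ∈ Icc a b, cl x = x := fun x hx => by
    simp only [cl]; rw [min_eq_right hx.2, max_eq_right hx.1]
  set W : Mat N → ℝ → Mat N := fun P x => V P (cl x)
  have hP : ∀ X : Mat N, (push m (re X)).PosDef := fun X => posDef_push hm (star_re X)
  have hW : ∀ X x, (W (push m (re X)) x).PosSemidef ∧ ‖W (push m (re X)) x‖ ≤ M' := fun X x =>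
    ⟨(hVM _ (hP X) _ (hcl x)).1, (hVM _ (hP X) _ (hcl x)).2.trans (le_max_left _ _)⟩
  have hWc : Continuous fun p : Mat N × ℝ => W (push m (re p.1)) p.2 :=
    hV.comp_continuous
      (((continuous_push m).comp (continuous_re.comp continuous_fst)).prodMk
        ((continuous_const.max (continuous_const.min continuous_snd))))
      fun p => ⟨hP p.1, hcl p.2⟩
  obtain ⟨K, G, hF⟩ := exists_fix hab hm hc' hM' hR₀pos hR W hW hWc
  have hre : re K = K := re_of_star hF.star_K
  have hPK0 : (push m K).PosDef := posDef_push hm hF.star_K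
  have hWK : Continuous fun x => W (push m K) x := by
    have := hWc.comp (f := fun x : ℝ => (K, x)) (continuous_const.prodMk continuous_id)
    simpa [Function.comp_def, hre] using this
  have hgap : gap m K = 0 := hF.gap_eq_zero hab hR hcL hmc hWK fun u hu => by
    have h := qf_nonneg (hVc _ hPK0) u
    rw [qf_sub, Complex.coe_smul c (1 : Mat N), qf_smul_one, hu, one_pow, mul_one,
      sub_nonneg] at h
    have e : ∫ x in a..b, V (push m K) x = ∫ x in a..b, W (push m K) x :=
      intervalIntegral.integral_congr fun x hx => by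
        rw [uIcc_of_le hab.le] at hx
        simp [W, hcl_id x hx]
    rw [e] at h
    refine h.trans (le_of_eq ?_)
    simpa using ((qL u).intervalIntegral_comp_comm (hWK.intervalIntegrable a b)).symm
  have hPK : push m K = K := by rw [push, hgap, zero_smul, add_zero]
  have hK : K.PosDef := hPK ▸ hPK0
  have hVK : ∀ x v, 0 ≤ qf (W K x) v ∧ qf (W K x) v ≤ M' * ‖v‖ ^ 2 := fun x v => by
    have h := hW K x
    rw [hre, hPK] at h
    exact ⟨qf_nonneg h.1 v, (le_abs_self _).trans ((abs_qf_le _ v).trans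
      (mul_le_mul_of_nonneg_right h.2 (sq_nonneg _)))⟩
  have hKlt : ‖K‖ < R₀ := hF.norm_lt hab hc hcL (by linarith)
  have hclip := hF.clip_eq hab hc' hR hPK hKlt (by linarith) hVK
  have hnorm : ‖K‖ ≤ k₁ := hF.norm_le hab hc' (le_max_right _ _) (le_max_left _ _) (by linarith)
    hPK hK hclip hVK
  have hs : switch R₀ K = 1 := switch_eq_one (by linarith)
  refine ⟨K, G, hK, fun x hx => ?_, hF.left, hF.right, fun x hx => ?_⟩
  · rw [IsHermitian, ← star_eq_conjTranspose]; exact hF.herm x hx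
  · have h := hF.deriv x hx
    rw [body, hre, hPK, hs, one_smul, sub_self, zero_mul, zero_smul, sub_zero,
      hclip x hx] at h
    simpa [W, hcl_id x hx] using h

end Vale.Agent.P371.Gamma
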