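import Vale.Agent.P371.Attain
import Vale.Agent.P371.Gamma.Const

/-!
P371: the one-channel soliton attains the constant.
-/

open Matrix MeasureTheory Filter Topology
open scoped ComplexOrder

namespace Vale.Agent.P371.Gamma

/-- `sech x ^ a`. -/
private noncomputable def sech (a x : ℝ) : ℝ := Real.cosh x ^ (-a)

private lemma sech_pos (a x : ℝ) : 0 < sech a x := Real.rpow_pos_of_pos (Real.cosh_pos x) _

private lemma sech_continuous (a : ℝ) : Continuous (sech a) :=
  Real.continuous_cosh.rpow_const fun x => Or.inl (Real.cosh_pos x).ne'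

private lemma sech_add (a b x : ℝ) : sech (a + b) x = sech a x * sech b x := by
  rw [sech, sech, sech, ← Real.rpow_add (Real.cosh_pos x)]
  ring_nf

private lemma sech_le {a : ℝ} (ha : 0 < a) (x : ℝ) :
    sech a x ≤ (2 : ℝ) ^ a * (1 + (a / 2 * x) ^ 2)⁻¹ := by
  have h2 : Real.exp |x| / 2 ≤ Real.cosh x := by
    rw [← Real.cosh_abs x, Real.cosh_eq]
    have := Real.exp_pos (-|x|)
    linarith
  have h3 : 1 + (a / 2 * x) ^ 2 ≤ Real.exp (a * |x|) := by
    have hq := Real.quadratic_le_exp_of_nonneg (x := a * |x|) (by positivity)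
    have e : (a * |x|) ^ 2 = (a * x) ^ 2 := by rw [mul_pow, mul_pow, sq_abs]
    have : 0 ≤ a * |x| := by positivity
    nlinarith [sq_nonneg (a * x)]
  have h4 : sech a x ≤ (Real.exp |x| / 2) ^ (-a) :=
    Real.rpow_le_rpow_of_nonpos (by positivity) h2 (by linarith)
  refine h4.trans ?_
  rw [Real.rpow_neg (by positivity), Real.div_rpow (Real.exp_pos _).le zero_le_two,
    ← Real.exp_mul, inv_div, ← div_eq_mul_inv, mul_comm |x| a]
  exact div_le_div_of_nonneg_left (by positivity) (by positivity) h3

private lemma sech_integrable {a : ℝ} (ha : 0 < a) : Integrable (sech a) := by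
  refine ((integrable_inv_one_add_sq.comp_mul_left' (R := a / 2) (by positivity)).const_mul
    ((2 : ℝ) ^ a)).mono' (sech_continuous a).aestronglyMeasurable
    (Eventually.of_forall fun x => ?_)
  rw [Real.norm_eq_abs, abs_of_pos (sech_pos a x)]
  exact sech_le ha x

private lemma hasDerivAt_sech (a x : ℝ) :
    HasDerivAt (sech a) (-a * Real.sinh x * sech (a + 1) x) x := by
  refine ((Real.hasDerivAt_cosh x).rpow_const (p := -a) (Or.inl (Real.cosh_pos x).ne')).congr_deriv ?_
  rw [sech, show -(a + 1) = -a - 1 by ring]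
  ring

private lemma sinh_sq_sech (a x : ℝ) :
    Real.sinh x ^ 2 * sech (a + 2) x = sech a x - sech (a + 2) x := by
  have e : sech a x = Real.cosh x ^ 2 * sech (a + 2) x := by
    rw [sech, sech, ← Real.rpow_natCast, ← Real.rpow_add (Real.cosh_pos x)]
    push_cast
    ring_nf
  rw [e, Real.cosh_sq]
  ring

/-- The recursion `a ∫ sech^a = (a + 1) ∫ sech^(a+2)`. -/
private lemma sech_recursion {a : ℝ} (ha : 0 < a) :
    a * ∫ x, sech a x = (a + 1) * ∫ x, sech (a + 2) x := by
  have hd : ∀ x, HasDerivAt (fun y => Real.sinh y * sech (a + 1) y)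
      ((a + 1) * sech (a + 2) x - a * sech a x) x := by
    intro x
    refine ((Real.hasDerivAt_sinh x).mul (hasDerivAt_sech (a + 1) x)).congr_deriv ?_
    have h := sinh_sq_sech a x
    rw [show a + 1 + 1 = a + 2 by ring]
    have e : Real.cosh x * sech (a + 1) x = sech a x := by
      rw [sech, sech, mul_comm, ← Real.rpow_add_one (Real.cosh_pos x).ne']
      ring_nf
    rw [e]
    linear_combination (-(a + 1)) * h
  have hi : Integrable fun x => (a + 1) * sech (a + 2) x - a * sech a x :=
    ((sech_integrable (by linarith)).const_mul _).sub ((sech_integrable ha).const_mul _)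
  have hg : Integrable fun y => Real.sinh y * sech (a + 1) y := by
    refine (sech_integrable ha).mono' (Real.continuous_sinh.mul (sech_continuous _)).aestronglyMeasurable
      (Eventually.of_forall fun x => ?_)
    rw [Real.norm_eq_abs, abs_mul, abs_of_pos (sech_pos _ x)]
    have hs : |Real.sinh x| ≤ Real.cosh x := by
      rw [abs_le]
      constructor <;> nlinarith [Real.cosh_sq x, Real.cosh_pos x]
    calc |Real.sinh x| * sech (a + 1) x ≤ Real.cosh x * sech (a + 1) x :=
          mul_le_mul_of_nonneg_right hs (sech_pos _ x).le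
      _ = sech a x := by
          rw [sech, sech, mul_comm, ← Real.rpow_add_one (Real.cosh_pos x).ne']
          ring_nf
  have h := integral_eq_zero_of_hasDerivAt_of_integrable hd hi hg
  rw [integral_sub ((sech_integrable (by linarith)).const_mul _) ((sech_integrable ha).const_mul _),
    integral_const_mul, integral_const_mul] at h
  linarith

/-- `∫ sech^(2γ+1) = ∫_{-1}^1 (1 - f²)^(γ - 1/2)`. -/
private lemma integral_sech {γ : ℝ} (h : 1 / 2 < γ) :
    ∫ x, sech (2 * (γ - 1 / 2) + 2) x = solInt γ := by
  set g : ℝ → ℝ := fun f => (1 - f ^ 2) ^ (γ - 1 / 2) with hgdef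
  have hg : Continuous g :=
    (continuous_const.sub (continuous_id.pow 2)).rpow_const fun _ => Or.inr (by linarith)
  have hΦ : ∀ y, HasDerivAt (fun z => ∫ f in (-1 : ℝ)..z, g f) (g y) y := fun y =>
    (hg.integral_hasStrictDerivAt (-1) y).hasDerivAt
  have hd : ∀ x, HasDerivAt (fun z => ∫ f in (-1 : ℝ)..Real.sinh z / Real.cosh z, g f)
      (sech (2 * (γ - 1 / 2) + 2) x) x := by
    intro x
    have hc := Real.cosh_pos x
    refine ((hΦ _).comp x ((Real.hasDerivAt_sinh x).div (Real.hasDerivAt_cosh x) hc.ne')).congr_deriv ?_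
    have e1 : 1 - (Real.sinh x / Real.cosh x) ^ 2 = Real.cosh x ^ (-2 : ℝ) := by
      rw [Real.rpow_neg hc.le, show (2 : ℝ) = ((2 : ℕ) : ℝ) by norm_num, Real.rpow_natCast]
      field_simp
      nlinarith [Real.cosh_sq x]
    have e2 : (Real.cosh x * Real.cosh x - Real.sinh x * Real.sinh x) / Real.cosh x ^ 2
        = Real.cosh x ^ (-2 : ℝ) := by
      rw [Real.rpow_neg hc.le, show (2 : ℝ) = ((2 : ℕ) : ℝ) by norm_num, Real.rpow_natCast]
      field_simp
      nlinarith [Real.cosh_sq x]
    simp only [hgdef, Pi.div_apply]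
    rw [e1, e2, ← Real.rpow_mul hc.le, ← Real.rpow_add hc, sech]
    ring_nf
  have hlim : Tendsto (fun x : ℝ => Real.sinh x / Real.cosh x) atTop (𝓝 1) := by
    have hT : Tendsto (fun x => 1 - Real.exp (-x) / Real.cosh x) atTop (𝓝 1) := by
      have h0 : Tendsto (fun x => Real.exp (-x) / Real.cosh x) atTop (𝓝 0) := by
        refine squeeze_zero (fun x => by have := Real.cosh_pos x; positivity) (fun x => ?_)
          Real.tendsto_exp_neg_atTop_nhds_zero
        exact div_le_self (Real.exp_pos _).le (Real.one_le_cosh x)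
      simpa using tendsto_const_nhds.sub h0
    refine hT.congr fun x => ?_
    rw [one_sub_div (Real.cosh_pos x).ne', ← Real.cosh_sub_sinh]
    ring_nf
  have hlim' : Tendsto (fun x : ℝ => Real.sinh x / Real.cosh x) atBot (𝓝 (-1)) := by
    have := (hlim.comp tendsto_neg_atBot_atTop).neg
    refine this.congr fun x => ?_
    simp [neg_div]
  have hcont : Continuous fun z => ∫ f in (-1 : ℝ)..z, g f :=
    continuous_iff_continuousAt.2 fun y => (hΦ y).continuousAt
  rw [integral_of_hasDerivAt_of_tendsto hd (sech_integrable (by linarith))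
    ((hcont.tendsto (-1)).comp hlim') ((hcont.tendsto 1).comp hlim),
    intervalIntegral.integral_same, sub_zero]
  rfl

/-- The potential `s(s+1) sech² x` in channel `k₀`. -/
private noncomputable def solW {m : ℕ} (k₀ : Fin m) (s x : ℝ) : Matrix (Fin m) (Fin m) ℂ :=
  diagonal fun k => ((if k = k₀ then s * (s + 1) * sech 2 x else 0 : ℝ) : ℂ)

/-- The normalised profile `c sech^s`. -/
private noncomputable def solU {m : ℕ} (k₀ : Fin m) (c s x : ℝ) : EuclideanSpace ℂ (Fin m) :=
  ((c * sech s x : ℝ) : ℂ) • EuclideanSpace.single k₀ (1 : ℂ)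

/-- Its derivative. -/
private noncomputable def solU' {m : ℕ} (k₀ : Fin m) (c s x : ℝ) : EuclideanSpace ℂ (Fin m) :=
  ((c * (-s * Real.sinh x * sech (s + 1) x) : ℝ) : ℂ) • EuclideanSpace.single k₀ (1 : ℂ)

private lemma norm_smul_single_sq {m : ℕ} (k₀ : Fin m) (r : ℝ) :
    ‖((r : ℂ) • EuclideanSpace.single k₀ (1 : ℂ))‖ ^ 2 = r ^ 2 := by
  rw [norm_smul, PiLp.norm_single, norm_one, mul_one, Complex.norm_real, Real.norm_eq_abs, sq_abs]

private lemma norm_solU {m : ℕ} (k₀ : Fin m) (c s x : ℝ) :
    ‖solU k₀ c s x‖ ^ 2 = c ^ 2 * sech (2 * s) x := by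
  rw [solU, norm_smul_single_sq, mul_pow, two_mul, sech_add, sq (sech s x)]

private lemma norm_solU' {m : ℕ} (k₀ : Fin m) (c s x : ℝ) :
    ‖solU' k₀ c s x‖ ^ 2 = c ^ 2 * s ^ 2 * (sech (2 * s) x - sech (2 * s + 2) x) := by
  have e : sech (2 * s + 2) x = sech (s + 1) x * sech (s + 1) x := by
    rw [← sech_add]
    ring_nf
  rw [solU', norm_smul_single_sq, ← sinh_sq_sech (2 * s) x, e]
  ring

/-- The soliton attains the constant. -/
theorem soliton : SolitonStmt := by
  intro γ h1 _h2 m hm
  set k₀ : Fin m := ⟨0, hm⟩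
  set s : ℝ := γ - 1 / 2 with hsdef
  have hs : 0 < s := by simp only [hsdef]; linarith
  set B := ∫ x, sech (2 * s + 2) x with hBdef
  set A := ∫ x, sech (2 * s) x with hAdef
  have hB : B = solInt γ := integral_sech h1
  have hAB : 2 * s * A = (2 * s + 1) * B := sech_recursion (by linarith)
  have hsol := solInt_pos h1
  have hA : 0 < A := by
    have : 0 < (2 * s + 1) * B := mul_pos (by linarith) (by rw [hB]; exact hsol)
    rw [← hAB] at this
    exact pos_of_mul_pos_right this (by linarith)
  set c : ℝ := (Real.sqrt A)⁻¹ with hcdef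
  have hc2 : c ^ 2 * A = 1 := by
    rw [hcdef, inv_pow, Real.sq_sqrt hA.le, inv_mul_cancel₀ hA.ne']
  have hU : ∀ x, HasDerivAt (solU k₀ c s) (solU' k₀ c s x) x := fun x =>
    (((hasDerivAt_sech s x).const_mul c).ofReal_comp).smul_const _
  have hU'c : Continuous (solU' k₀ c s) := by
    refine (Complex.continuous_ofReal.comp ?_).smul continuous_const
    exact continuous_const.mul ((continuous_const.mul Real.continuous_sinh).mul (sech_continuous _))
  have hi1 := sech_integrable (a := 2 * s) (by linarith)
  have hi2 := sech_integrable (a := 2 * s + 2) (by linarith)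
  have hW : ∀ x, (solW k₀ s x).PosSemidef := fun x => by
    refine PosSemidef.diagonal fun k => ?_
    have : (0 : ℝ) ≤ if k = k₀ then s * (s + 1) * sech 2 x else 0 := by
      split_ifs
      · exact mul_nonneg (by positivity) (sech_pos _ _).le
      · exact le_rfl
    simpa [Complex.le_def] using this
  have htr : trPow (γ + 1 / 2) (solW k₀ s)
      = fun x => (s * (s + 1)) ^ (γ + 1 / 2) * sech (2 * s + 2) x := by
    funext x
    rw [trPow, solW, trace_cfc_diagonal, Finset.sum_eq_single k₀]
    · rw [if_pos rfl, Real.mul_rpow (by positivity) (sech_pos _ _).le, sech, sech,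
        ← Real.rpow_mul (Real.cosh_pos x).le,
        show -2 * (γ + 1 / 2) = -(2 * s + 2) by rw [hsdef]; ring]
    · intro k _ hk
      rw [if_neg hk, Real.zero_rpow (by linarith)]
    · simp
  have hintW : ∫ x, trPow (γ + 1 / 2) (solW k₀ s) x = (s * (s + 1)) ^ (γ + 1 / 2) * B := by
    rw [htr, integral_const_mul]
  refine ⟨solW k₀ s, fun _ => solU k₀ c s, fun _ => solU' k₀ c s, ⟨hW, ?_, ?_⟩, ?_,
    ⟨fun _ => hU, fun _ => hU'c, fun _ => ?_, fun _ => ?_, ?_⟩, ?_⟩
  · intro k l
    by_cases hkl : k = l
    · subst hkl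
      simp only [solW, diagonal_apply_eq]
      refine Complex.measurable_ofReal.comp ?_
      split_ifs
      · exact (continuous_const.mul (sech_continuous 2)).measurable
      · exact measurable_const
    · simp only [solW, diagonal_apply_ne _ hkl]
      exact measurable_const
  · rw [htr]; exact hi2.const_mul _
  · rw [hintW]
    exact mul_pos (Real.rpow_pos_of_pos (by positivity) _) (by rw [hB]; exact hsol)
  · rw [memLp_two_iff_integrable_sq_norm
      (continuous_iff_continuousAt.2 fun x => (hU x).continuousAt).aestronglyMeasurable]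
    simp only [norm_solU]
    exact hi1.const_mul _
  · rw [memLp_two_iff_integrable_sq_norm hU'c.aestronglyMeasurable]
    simp only [norm_solU']
    exact (hi1.sub hi2).const_mul _
  · intro i j
    rw [if_pos (Subsingleton.elim i j)]
    have e : (fun x => inner ℂ (solU k₀ c s x) (solU k₀ c s x))
        = fun x => ((c ^ 2 * sech (2 * s) x : ℝ) : ℂ) := by
      funext x
      rw [inner_self_eq_norm_sq_to_K, ← norm_solU k₀ c s x]
      push_cast
      rfl
    rw [e, integral_complex_ofReal, integral_const_mul, ← hAdef, hc2, Complex.ofReal_one]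
  · have e1 : potDensity (solW k₀ s) (solU k₀ c s)
        = fun x => c ^ 2 * (s * (s + 1)) * sech (2 * s + 2) x := by
      funext x
      rw [potDensity, PiLp.inner_apply, Finset.sum_eq_single k₀]
      · simp only [solW, Matrix.mulVec_diagonal, solU, PiLp.smul_apply, PiLp.single_apply,
          if_true, RCLike.inner_apply, smul_eq_mul, mul_one, Complex.conj_ofReal,
          ← Complex.ofReal_mul, Complex.ofReal_re]
        rw [show 2 * s + 2 = s + s + 2 by ring, sech_add, sech_add]
        ring
      · intro k _ hk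
        simp [solW, Matrix.mulVec_diagonal, solU, hk]
      · simp
    have e2 : negEnergy (solW k₀ s) (solU k₀ c s) (solU' k₀ c s) = s ^ 2 := by
      rw [negEnergy, e1]
      simp only [norm_solU']
      rw [integral_const_mul, integral_const_mul, integral_sub hi1 hi2, ← hAdef, ← hBdef]
      linear_combination (c ^ 2 * s) * hAB.symm + s ^ 2 * hc2
    rw [e2, max_eq_left (sq_nonneg s), hintW, hB, calConst, ← hsdef,
      show γ + 1 / 2 = s + 1 by rw [hsdef]; ring, Real.mul_rpow hs.le (by linarith),
      ← Real.rpow_natCast, ← Real.rpow_mul hs.le]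
    have hp : 0 < (s + 1) ^ (s + 1) := Real.rpow_pos_of_pos (by linarith) _
    field_simp
    rw [← Real.rpow_add hs]
    congr 1
    rw [hsdef]
    push_cast
    ring

end Vale.Agent.P371.Gamma
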