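import Vale.Agent.P371.Gamma.Solvent.Phase

/-!
P371, module Solvent: the stable solvent of a positive pencil.
-/

open Matrix MeasureTheory Set
open scoped Matrix.Norms.L2Operator ComplexOrder

namespace Vale.Agent.P371.Gamma

/-- The solvent exists, is unique, depends continuously on the pencil, and obeys the derivative and
phase identities. -/
theorem solvent : SolventStmt := fun _ =>
  ⟨fun G A => (Sol.pick (G, A)).1, fun G A => (Sol.pick (G, A)).2,
    fun _ _ h => Sol.pick_isSolvent h,
    fun _ _ _ _ _ h => by simp [Sol.pick_eq h],
    continuous_fst.comp_continuousOn Sol.pick_continuousOn,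
    continuous_snd.comp_continuousOn Sol.pick_continuousOn,
    fun _ _ _ h => Sol.hasDerivAt_trace_im h,
    fun _ _ _ _ hK _ _ hab ht _ hG' hG ha hb hP => Sol.phase hK hab ht hG' hG ha hb hP⟩

end Vale.Agent.P371.Gamma
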