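import Vale.Agent.P371.Gamma.Trial.Scalar
import Vale.Agent.P371.Gamma.Trial.Completion

/-!
P371, trial functions: from the calibration and the flips to the bound on a family.
-/

open Matrix MeasureTheory Set Filter
open scoped Matrix.Norms.L2Operator ComplexOrder Topology InnerProductSpace

namespace Vale.Agent.P371.Gamma

namespace Trial

variable {m N : ℕ}

/-- A regularized inverse square root. -/
noncomputable def tilt (ε y : ℝ) : ℝ := (Real.sqrt (max y 0 + ε))⁻¹

theorem continuous_tilt {ε : ℝ} (hε : 0 < ε) : Continuous (tilt ε) :=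
  ((continuous_id.max continuous_const).add continuous_const).sqrt.inv₀ fun y =>
    (Real.sqrt_pos.2 (add_pos_of_nonneg_of_pos (le_max_right y 0) hε)).ne'

theorem tilt_mul_tilt {ε y : ℝ} (hε : 0 < ε) (hy : 0 ≤ y) : tilt ε y * tilt ε y = (y + ε)⁻¹ := by
  rw [tilt, max_eq_left hy, ← mul_inv, Real.mul_self_sqrt (by linarith)]

/-- The regularized partial isometry of a rectangular matrix. -/
noncomputable def partialIso (ε : ℝ) (B : Matrix (Fin N) (Fin m) ℂ) : Matrix (Fin N) (Fin m) ℂ :=
  B * cfc (tilt ε) (Bᴴ * B)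

theorem spectrum_nonneg {n : ℕ} {H : Mat n} (hH : H.PosSemidef) {y : ℝ} (hy : y ∈ spectrum ℝ H) :
    0 ≤ y := by
  rw [hH.1.spectrum_real_eq_range_eigenvalues] at hy
  obtain ⟨i, rfl⟩ := hy
  exact hH.eigenvalues_nonneg i

theorem partialIso_spec {ε : ℝ} (hε : 0 < ε) (B : Matrix (Fin N) (Fin m) ℂ) :
    ‖partialIso ε B‖ ≤ 1 ∧ ∀ W : Mat m, W.PosSemidef →
      (W * (Bᴴ * B)).trace.re - ε * W.trace.re
        ≤ (partialIso ε B * W * (partialIso ε B)ᴴ * (B * Bᴴ)).trace.re := by
  set H : Mat m := Bᴴ * B with hHdef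
  have hH : H.PosSemidef := posSemidef_conjTranspose_mul_self B
  have hsa : IsSelfAdjoint H := hH.1
  set R : Mat m := cfc (tilt ε) H with hR
  have hRh : Rᴴ = R := (cfc_predicate (tilt ε) H : IsSelfAdjoint (cfc (tilt ε) H))
  have hc : ∀ f : ℝ → ℝ, ContinuousOn f (spectrum ℝ H) := fun f =>
    (Matrix.finite_real_spectrum (A := H)).continuousOn f
  have e1 : R * H * R = cfc (fun y => tilt ε y * y * tilt ε y) H := by
    rw [cfc_mul (fun y => tilt ε y * y) (tilt ε) H (hc _) (hc _),
      cfc_mul (tilt ε) (fun y => y) H (hc _) (hc _), cfc_id' ℝ H]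
  refine ⟨?_, fun W hW => ?_⟩
  · have h : ‖R * H * R‖ ≤ 1 := by
      rw [e1]
      refine norm_cfc_le zero_le_one fun y hy => ?_
      have hy0 := spectrum_nonneg hH hy
      rw [mul_right_comm, tilt_mul_tilt hε hy0, Real.norm_eq_abs,
        abs_of_nonneg (by positivity), inv_mul_le_one₀ (by linarith)]
      linarith
    have h2 : (partialIso ε B)ᴴ * partialIso ε B = R * H * R := by
      simp only [partialIso, ← hHdef, ← hR, Matrix.conjTranspose_mul, hRh, Matrix.mul_assoc]
      rw [hHdef, Matrix.mul_assoc]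
    have h3 := Matrix.l2_opNorm_conjTranspose_mul_self (partialIso ε B)
    rw [h2] at h3
    nlinarith [norm_nonneg (partialIso ε B)]
  · have e2 : R * H * (H * R) = cfc (fun y => tilt ε y * y * (y * tilt ε y)) H := by
      rw [cfc_mul (fun y => tilt ε y * y) (fun y => y * tilt ε y) H (hc _) (hc _),
        cfc_mul (tilt ε) (fun y => y) H (hc _) (hc _),
        cfc_mul (fun y => y) (tilt ε) H (hc _) (hc _), cfc_id' ℝ H]
    set Q : Mat m := cfc (fun y => ε - (y - tilt ε y * y * (y * tilt ε y))) H with hQ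
    have hQp : Q.PosSemidef := posSemidef_cfc hH.1 fun i => by
      set y := hH.1.eigenvalues i with hy
      have hy0 : 0 ≤ y := hH.eigenvalues_nonneg i
      have e : tilt ε y * y * (y * tilt ε y) = (y + ε)⁻¹ * (y * y) := by
        rw [← tilt_mul_tilt hε hy0]; ring
      have e' : y - (y + ε)⁻¹ * (y * y) = ε * (y * (y + ε)⁻¹) := by field_simp; ring
      have h1 : y * (y + ε)⁻¹ ≤ 1 := by
        rw [← div_eq_mul_inv, div_le_one (by linarith)]; linarith
      rw [e, e']
      nlinarith
    have eQ : Q = (ε : ℂ) • 1 - (H - R * H * (H * R)) := by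
      rw [hQ, cfc_sub (fun _ => ε) (fun y => y - tilt ε y * y * (y * tilt ε y)) H (hc _) (hc _),
        cfc_sub (fun y => y) (fun y => tilt ε y * y * (y * tilt ε y)) H (hc _) (hc _),
        cfc_id' ℝ H, cfc_const ε H, ← e2, Algebra.algebraMap_eq_smul_one, Complex.coe_smul]
    have h := re_trace_mul_nonneg hW hQp
    rw [eQ, Matrix.mul_sub, Matrix.mul_sub, Matrix.mul_smul, Matrix.mul_one, Matrix.trace_sub,
      Matrix.trace_sub, Matrix.trace_smul, Complex.sub_re, Complex.sub_re, smul_eq_mul,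
      Complex.re_ofReal_mul] at h
    have e3 : (partialIso ε B * W * (partialIso ε B)ᴴ * (B * Bᴴ)).trace
        = (W * (R * H * (H * R))).trace := by
      simp only [partialIso, ← hHdef, ← hR, Matrix.conjTranspose_mul, hRh]
      rw [show B * R * W * (R * Bᴴ) * (B * Bᴴ) = B * R * W * (R * (H * Bᴴ)) by
        simp only [hHdef, Matrix.mul_assoc]]
      rw [Matrix.trace_mul_comm, show R * (H * Bᴴ) * (B * R * W) = R * H * (H * R) * W by
        simp only [hHdef, Matrix.mul_assoc], Matrix.trace_mul_comm]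
    rw [e3]
    linarith

/-- The compressed potential seen by the trial columns of `B`. -/
noncomputable def compressed (ε η : ℝ) (W : Mat m) (B : Matrix (Fin N) (Fin m) ℂ) : Mat N :=
  partialIso ε B * W * (partialIso ε B)ᴴ + (η : ℂ) • 1

theorem posSemidef_integral {n : ℕ} {a b : ℝ} (hab : a ≤ b) {X : ℝ → Mat n}
    (hX : ContinuousOn X (Icc a b)) (hp : ∀ x ∈ Icc a b, (X x).PosSemidef) :
    (∫ x in a..b, X x).PosSemidef := by
  have hi : IntervalIntegrable X volume a b := hX.intervalIntegrable_of_Icc hab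
  have hh : (∫ x in a..b, X x).IsHermitian := by
    have h := ((starL' ℝ : Mat n ≃L[ℝ] Mat n).toContinuousLinearMap).intervalIntegral_comp_comm hi
    show star (∫ x in a..b, X x) = ∫ x in a..b, X x
    simp only [ContinuousLinearEquiv.coe_coe, starL'_apply] at h
    rw [← h]
    refine intervalIntegral.integral_congr fun x hx => ?_
    rw [uIcc_of_le hab] at hx
    exact (hp x hx).1
  refine PosSemidef.of_dotProduct_mulVec_nonneg hh fun v => Complex.le_def.2 ⟨?_, ?_⟩
  · set q : Mat n →L[ℝ] ℝ :=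
      (reTrace n).comp ((ContinuousLinearMap.mul ℝ (Mat n)).flip (vecMulVec v (star v))) with hq
    have hqa : ∀ M : Mat n, q M = (star v ⬝ᵥ M *ᵥ v).re := fun M => by
      change (M * vecMulVec v (star v)).trace.re = _
      rw [Matrix.mul_vecMulVec, Matrix.trace_vecMulVec, dotProduct_comm]
    rw [Complex.zero_re, ← hqa, ← q.intervalIntegral_comp_comm hi]
    refine intervalIntegral.integral_nonneg hab fun x hx => ?_
    rw [hqa]
    exact (hp x hx).re_dotProduct_nonneg v
  · exact (hh.im_star_dotProduct_mulVec_self v).symm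

variable {W : ℝ → Mat m}

theorem continuous_trPow {p : ℝ} (hp : 0 ≤ p) (hWh : ∀ x, (W x).IsHermitian) (hW : Continuous W) :
    Continuous (trPow p W) :=
  (reTrace m).continuous.comp
    (Continuous.cfc_of_mem_nhdsSet (s := univ) (fun w : ℝ => w ^ p) univ_mem hW (fun x => hWh x)
      (Real.continuous_rpow_const hp).continuousOn)

theorem continuousOn_compressed {ε η : ℝ} (hε : 0 < ε) {u : Fin N → ℝ → EuclideanSpace ℂ (Fin m)}
    (hcu : ∀ i, Continuous (u i)) (hW : Continuous W) {C : Mat N → Mat N}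
    (hCc : ContinuousOn C {K | K.PosDef}) (a b : ℝ) :
    ContinuousOn (fun q : Mat N × ℝ => compressed ε η (W q.2) (C q.1 * mix u q.2))
      ({K | K.PosDef} ×ˢ Icc a b) := by
  set S := ({K : Mat N | K.PosDef} ×ˢ Icc a b)
  have hC' : ContinuousOn (fun q : Mat N × ℝ => C q.1) S :=
    hCc.comp continuous_fst.continuousOn fun q hq => (mem_prod.1 hq).1
  have hB : ContinuousOn (fun q : Mat N × ℝ => C q.1 * mix u q.2) S :=
    ((continuous_fst.matrix_mul continuous_snd).comp_continuousOn
      (hC'.prodMk ((continuous_mix hcu).comp continuous_snd).continuousOn) :)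
  have hH : ContinuousOn (fun q : Mat N × ℝ => (C q.1 * mix u q.2)ᴴ * (C q.1 * mix u q.2)) S :=
    ((continuous_id.matrix_conjTranspose.matrix_mul continuous_id).comp_continuousOn hB :)
  have hR : ContinuousOn
      (fun q : Mat N × ℝ => cfc (tilt ε) ((C q.1 * mix u q.2)ᴴ * (C q.1 * mix u q.2))) S :=
    ContinuousOn.cfc_of_mem_nhdsSet (s := univ) (tilt ε) univ_mem hH
      (fun q _ => (posSemidef_conjTranspose_mul_self _).1) (continuous_tilt hε).continuousOn
  have hA : ContinuousOn (fun q : Mat N × ℝ => partialIso ε (C q.1 * mix u q.2)) S :=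
    ((continuous_fst.matrix_mul continuous_snd).comp_continuousOn (hB.prodMk hR) :)
  have hAW : ContinuousOn
      (fun q : Mat N × ℝ => partialIso ε (C q.1 * mix u q.2) * W q.2
        * (partialIso ε (C q.1 * mix u q.2))ᴴ) S :=
    (((continuous_fst.matrix_mul continuous_snd).matrix_mul
      continuous_fst.matrix_conjTranspose).comp_continuousOn
      (hA.prodMk (hW.comp continuous_snd).continuousOn) :)
  exact hAW.add continuousOn_const

theorem compressed_bound {ε η : ℝ} (hε : 0 < ε) (hη : 0 ≤ η) {W : Mat m} (hW : W.PosSemidef)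
    (B : Matrix (Fin N) (Fin m) ℂ) :
    (compressed ε η W B).PosSemidef ∧ ‖compressed ε η W B‖ ≤ ‖W‖ + η := by
  have hA := (partialIso_spec hε B).1
  refine ⟨(hW.mul_mul_conjTranspose_same _).add (PosSemidef.one.smul (by exact_mod_cast hη)),
    (norm_add_le _ _).trans (add_le_add ?_ ?_)⟩
  · calc _ ≤ ‖partialIso ε B * W‖ * ‖(partialIso ε B)ᴴ‖ := Matrix.l2_opNorm_mul _ _
      _ ≤ 1 * ‖W‖ * 1 := by
          rw [Matrix.l2_opNorm_conjTranspose]
          refine mul_le_mul ((Matrix.l2_opNorm_mul _ _).trans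
            (mul_le_mul_of_nonneg_right hA (norm_nonneg _))) hA (norm_nonneg _) (by positivity)
      _ = ‖W‖ := by rw [one_mul, mul_one]
  · rw [norm_smul, Complex.norm_real, Real.norm_of_nonneg hη]
    exact mul_le_of_le_one_right hη (norm_one_le N)

/-- The mass of a compressed potential is at least the shift. -/
theorem compressed_mass {ε η a b : ℝ} (hab : a ≤ b) {X : ℝ → Matrix (Fin N) (Fin m) ℂ}
    (hW : ∀ x, (W x).PosSemidef)
    (hV : ContinuousOn (fun x => compressed ε η (W x) (X x)) (Icc a b)) :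
    ((∫ x in a..b, compressed ε η (W x) (X x)) - ((η * (b - a) : ℝ) : ℂ) • 1).PosSemidef := by
  have hi : IntervalIntegrable (fun x => compressed ε η (W x) (X x)) volume a b :=
    hV.intervalIntegrable_of_Icc hab
  have h := posSemidef_integral (n := N) hab
    (X := fun x => compressed ε η (W x) (X x) - (η : ℂ) • (1 : Mat N))
    (hV.sub continuousOn_const) fun x _ => by
      simpa [compressed] using (hW x).mul_mul_conjTranspose_same (partialIso ε (X x))
  rw [intervalIntegral.integral_sub hi intervalIntegrable_const, intervalIntegral.integral_const,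
    ← Complex.coe_smul (b - a), smul_smul] at h
  convert h using 3
  push_cast
  ring

variable {u u' : Fin N → ℝ → EuclideanSpace ℂ (Fin m)}

/-- The energies of the family against the square completion. -/
theorem energy_le {ε η : ℝ} (hε : 0 < ε) (hη : 0 ≤ η) (hWp : ∀ x, (W x).PosSemidef)
    (hW : Continuous W) {a b : ℝ} (hab : a ≤ b) (hsupp : ∀ x, x ∉ Ioc a b → W x = 0)
    (hu : IsFamily u u') (hd : IsFormDiag W u u') {K : Mat N} {G : ℝ → Mat N} (C : Mat N)
    (hflip : IsFlip a b K (fun x => compressed ε η (W x) (C * mix u x)) G)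
    (hV : ContinuousOn (fun x => compressed ε η (W x) (C * mix u x)) (Icc a b)) :
    ∑ i, ((Cᴴ * C) i i).re * negEnergy W (u i) (u' i)
      ≤ (K * K * (C * Cᴴ)).trace.re + ε * ∫ x, (W x).trace.re := by
  have hcu : ∀ i, Continuous (u i) := fun i =>
    continuous_iff_continuousAt.2 fun x => (hu.1 i x).continuousAt
  have hcomp := completion hu hab hflip hV C
  set D : Mat N := Cᴴ * C with hD
  set B : ℝ → Matrix (Fin N) (Fin m) ℂ := fun x => C * mix u x
  set Wu : Fin N → ℝ → EuclideanSpace ℂ (Fin m) :=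
    fun i x => WithLp.toLp 2 (W x *ᵥ (u i x).ofLp) with hWu
  have hmixW : ∀ x, (mix Wu x)ᴴ = W x * (mix u x)ᴴ := fun x => by
    ext k i
    simp [mix, hWu, Matrix.mul_apply, Matrix.mulVec, dotProduct]
  have hMc : ∀ j i, Integrable fun x => ⟪u j x, Wu i x⟫_ℂ := by
    intro j i
    have hcW : Continuous (Wu i) :=
      (PiLp.continuous_toLp 2 _).comp (hW.matrix_mulVec ((PiLp.continuous_ofLp 2 _).comp (hcu i)))
    refine Continuous.integrable_of_hasCompactSupport ((hcu j).inner hcW)
      (HasCompactSupport.intro (isCompact_Icc (a := a) (b := b)) fun x hx => ?_) (μ := volume)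
    have h0 : W x = 0 := hsupp x fun h => hx (Ioc_subset_Icc_self h)
    simp [hWu, h0]
  obtain ⟨hMi, hMv⟩ := integral_re_trace D (fun x => mix u x * (mix Wu x)ᴴ)
    (fun j i => by simpa only [mix_mul_mix] using hMc j i)
  have eWH : ∀ x, (W x * ((B x)ᴴ * B x)).trace = (D * (mix u x * (mix Wu x)ᴴ)).trace := by
    intro x
    rw [hmixW, show D * (mix u x * (W x * (mix u x)ᴴ)) = (D * mix u x * W x) * (mix u x)ᴴ by
      simp only [Matrix.mul_assoc], Matrix.trace_mul_comm _ (mix u x)ᴴ, Matrix.trace_mul_comm]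
    simp only [B, hD, Matrix.conjTranspose_mul, ← Matrix.mul_assoc]
  have hlocal : ∀ x, (D * (mix u x * (mix Wu x)ᴴ)).trace.re - ε * (W x).trace.re ≤
      (compressed ε η (W x) (B x) * (B x * (B x)ᴴ)).trace.re := by
    intro x
    have h := (partialIso_spec hε (B x)).2 (W x) (hWp x)
    have h' : 0 ≤ ((η : ℂ) • (B x * (B x)ᴴ)).trace.re := by
      rw [Matrix.trace_smul, smul_eq_mul, Complex.re_ofReal_mul]
      exact mul_nonneg hη
        (Complex.le_def.1 (posSemidef_self_mul_conjTranspose (B x)).trace_nonneg).1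
    rw [← eWH]
    simp only [compressed, Matrix.add_mul, Matrix.trace_add, Complex.add_re,
      Matrix.smul_mul, Matrix.one_mul]
    linarith
  have hWt : Continuous fun x => (W x).trace.re := (reTrace m).continuous.comp hW
  have hWti : Integrable fun x => (W x).trace.re :=
    hWt.integrable_of_hasCompactSupport (HasCompactSupport.intro (isCompact_Icc (a := a) (b := b)) fun x hx => by
      simp [hsupp x fun h => hx (Ioc_subset_Icc_self h)])
  have hBc : Continuous B := continuous_const.matrix_mul (continuous_mix hcu)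
  have hVP : IntervalIntegrable (fun x => (compressed ε η (W x) (B x) * (B x * (B x)ᴴ)).trace.re)
      volume a b :=
    ((reTrace N).continuous.comp_continuousOn
      (hV.mul (hBc.matrix_mul hBc.matrix_conjTranspose).continuousOn)).intervalIntegrable_of_Icc hab
  have hint := intervalIntegral.integral_mono_on hab
    (hMi.sub (hWti.const_mul ε)).intervalIntegrable hVP fun x _ => hlocal x
  rw [intervalIntegral.integral_eq_integral_of_support_subset, Pi.sub_def,
    integral_sub hMi (hWti.const_mul ε), integral_const_mul, hMv] at hint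
  swap
  · intro x hx
    by_contra h
    refine hx ?_
    simp [hmixW, hsupp x h]
  have hE : (D * Matrix.of fun j i => ∫ x, ⟪u j x, Wu i x⟫_ℂ).trace.re
      - (D * Matrix.of fun j i => ∫ x, ⟪u' j x, u' i x⟫_ℂ).trace.re
      = ∑ i, (D i i).re * negEnergy W (u i) (u' i) := by
    rw [← Complex.sub_re, ← Matrix.trace_sub, ← Matrix.mul_sub,
      show (Matrix.of fun j i => ∫ x, ⟪u j x, Wu i x⟫_ℂ)
        - (Matrix.of fun j i => ∫ x, ⟪u' j x, u' i x⟫_ℂ) = energyMat W u u' from rfl,
      Matrix.trace, Complex.re_sum]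
    refine Finset.sum_congr rfl fun i _ => ?_
    rw [Matrix.diag_apply, Matrix.mul_apply, Finset.sum_eq_single i
      (fun j _ hj => by rw [hd j i hj, mul_zero]) (fun h => absurd (Finset.mem_univ i) h)]
    have hDi : (D i i).im = 0 :=
      Complex.conj_eq_iff_im.1 ((isHermitian_conjTranspose_mul_self C).apply i i)
    rw [Complex.mul_re, hDi, zero_mul, sub_zero]
    congr 1
    simp only [energyMat, Matrix.of_apply, negEnergy, Complex.sub_re]
    have hu2 : Integrable fun x => ⟪u' i x, u' i x⟫_ℂ := by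
      simpa only [mix_mul_mix] using integrable_gr hu.2.2.2.1 hu.2.2.2.1 i i
    congr 1
    · exact (integral_re (hMc i i)).symm
    · refine (integral_re hu2).symm.trans (integral_congr_ae (Eventually.of_forall fun x => ?_))
      exact inner_self_eq_norm_sq (u' i x)
  simp only [mix_mul_mix] at hint
  linarith

theorem calConst_nonneg {γ : ℝ} (h1 : 1 / 2 < γ) : 0 ≤ calConst γ :=
  div_nonneg (Real.rpow_nonneg (by linarith) _) (mul_nonneg
    (Real.rpow_nonneg (by linarith) _) (intervalIntegral.integral_nonneg (by norm_num)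
      fun f hf => Real.rpow_nonneg (by nlinarith [hf.1, hf.2]) _))

/-- The power of the compressed potential against that of the potential. -/
theorem compressed_power {ε δ p a b : ℝ} (hε : 0 < ε) (hp : 1 ≤ p) (hδ : 0 < δ) (hδ1 : δ < 1)
    (hWp : ∀ x, (W x).PosSemidef) (hW : Continuous W) (hab : a ≤ b)
    (hsupp : ∀ x, x ∉ Ioc a b → W x = 0) (X : ℝ → Matrix (Fin N) (Fin m) ℂ)
    (hV : ContinuousOn (fun x => compressed ε (δ ^ 2) (W x) (X x)) (Icc a b)) :
    ∫ x in a..b, trPow p (fun y => compressed ε (δ ^ 2) (W y) (X y)) x ≤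
      (1 - δ) ^ (1 - p) * (∫ x, trPow p W x) + δ ^ (1 + p) * N * (b - a) := by
  have hη : (0 : ℝ) ≤ δ ^ 2 := sq_nonneg δ
  have hc1 : ContinuousOn (trPow p fun y => compressed ε (δ ^ 2) (W y) (X y)) (Icc a b) :=
    (reTrace N).continuous.comp_continuousOn
      (ContinuousOn.cfc_of_mem_nhdsSet (s := univ) (fun w : ℝ => w ^ p) univ_mem hV
        (fun x _ => (compressed_bound hε hη (hWp x) (X x)).1.1)
        (Real.continuous_rpow_const (by linarith)).continuousOn)
  have hc2 : Continuous (trPow p W) := continuous_trPow (by linarith) (fun x => (hWp x).1) hW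
  have hpt : ∀ x ∈ Icc a b, trPow p (fun y => compressed ε (δ ^ 2) (W y) (X y)) x ≤
      (1 - δ) ^ (1 - p) * trPow p W x + δ ^ (1 - p) * (δ ^ 2) ^ p * N := fun x _ =>
    trace_rpow_shift_le (hWp x) _ (partialIso_spec hε (X x)).1 hp hη hδ hδ1
  refine (intervalIntegral.integral_mono_on hab (hc1.intervalIntegrable_of_Icc hab)
    (((continuous_const.mul hc2).add continuous_const).intervalIntegrable _ _) hpt).trans_eq ?_
  simp only [Pi.add_apply, Pi.mul_apply]
  rw [intervalIntegral.integral_add ((continuous_const.fun_mul hc2).intervalIntegrable _ _)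
    intervalIntegrable_const, intervalIntegral.integral_const_mul,
    intervalIntegral.integral_const, smul_eq_mul,
    intervalIntegral.integral_eq_integral_of_support_subset]
  · congr 1
    rw [sq, Real.mul_rpow hδ.le hδ.le, show 1 + p = (1 - p) + (p + p) by ring, Real.rpow_add hδ,
      Real.rpow_add hδ]
    ring
  · intro x hx
    by_contra h
    refine hx ?_
    rw [trPow, hsupp x h, cfc_apply_zero, Real.zero_rpow (by linarith)]
    simp

/-- **The bound of a family by a self-consistent flip.** -/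
theorem trial_bound (hC : CalibStmt) (hS : ShootStmt) {γ : ℝ} (h1 : 1 / 2 < γ) (h2 : γ < 3 / 2)
    (hWp : ∀ x, (W x).PosSemidef) (hW : Continuous W) {a b : ℝ} (hab : a < b)
    (hsupp : ∀ x, x ∉ Ioc a b → W x = 0)
    (hu : IsFamily u u') (hd : IsFormDiag W u u') (C : Mat N → Mat N)
    (hCc : ContinuousOn C {K | K.PosDef}) {δ : ℝ} (hδ : 0 < δ) (hδ1 : δ < 1) :
    ∃ (K : Mat N) (_ : K.PosDef),
      ∑ i, (((C K)ᴴ * C K) i i).re * negEnergy W (u i) (u' i)
          ≤ (K * K * (C K * (C K)ᴴ)).trace.re + δ * ∫ x, (W x).trace.re ∧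
      (cfc (fun k : ℝ => k ^ (2 * γ)) K).trace.re ≤
        calConst γ * ((1 - δ) ^ (1 - (γ + 1 / 2)) * (∫ x, trPow (γ + 1 / 2) W x)
          + δ ^ (1 + (γ + 1 / 2)) * N * (b - a)) := by
  have hη0 : 0 < δ ^ 2 := by positivity
  have hcu : ∀ i, Continuous (u i) := fun i =>
    continuous_iff_continuousAt.2 fun x => (hu.1 i x).continuousAt
  obtain ⟨Mw, hMw⟩ := isCompact_Icc.exists_bound_of_continuousOn (hW.continuousOn (s := Icc a b))
  have hVc := continuousOn_compressed (η := δ ^ 2) hδ hcu hW hCc a b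
  have hcK : ∀ K : Mat N, K.PosDef →
      ContinuousOn (fun x => compressed δ (δ ^ 2) (W x) (C K * mix u x)) (Icc a b) := fun K hK =>
    hVc.comp (f := fun x : ℝ => (K, x)) ((continuous_const.prodMk continuous_id).continuousOn)
      fun x hx => mem_prod.2 ⟨hK, hx⟩
  obtain ⟨K, G, hflip⟩ := hS N a b (δ ^ 2 * (b - a)) (Mw + δ ^ 2)
    (fun K x => compressed δ (δ ^ 2) (W x) (C K * mix u x)) hab (mul_pos hη0 (by linarith)) hVc
    (fun K _ x hx => ⟨(compressed_bound hδ hη0.le (hWp x) _).1,
      (compressed_bound hδ hη0.le (hWp x) _).2.trans (by linarith [hMw x hx])⟩)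
    (fun K hK => compressed_mass hab.le hWp (hcK K hK))
  have hK := hflip.posDef
  refine ⟨K, hK, energy_le hδ hη0.le hWp hW hab.le hsupp hu hd (C K) hflip (hcK K hK), ?_⟩
  exact (hC γ h1 h2 N a b K _ G hab
    (fun x _ => (compressed_bound hδ hη0.le (hWp x) _).1) (hcK K hK) hflip).trans
    (mul_le_mul_of_nonneg_left
      (compressed_power hδ (by linarith) hδ hδ1 hWp hW hab.le hsupp _ (hcK K hK))
      (calConst_nonneg h1))

/-- The scalar step: the sum of the powers of the energies below the trace of the power of `K`. -/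
theorem sum_rpow_le {γ : ℝ} (h1 : 1 / 2 < γ) {e : Fin N → ℝ} (he : ∀ i, 0 < e i) :
    ∃ C : Mat N → Mat N, ContinuousOn C {K | K.PosDef} ∧ ∀ K : Mat N, K.PosDef → ∀ τ : ℝ,
      ∑ i, (((C K)ᴴ * C K) i i).re * e i ≤ (K * K * (C K * (C K)ᴴ)).trace.re + τ →
      ∑ i, e i ^ γ ≤ (cfc (fun k : ℝ => k ^ (2 * γ)) K).trace.re + γ * τ := by
  have hγ : 0 < γ := by linarith
  rcases le_or_gt 1 γ with hg | hg
  · refine ⟨fun _ => diagonal fun i => ((e i ^ ((γ - 1) / 2) : ℝ) : ℂ), continuousOn_const,
      fun K hK τ h => ?_⟩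
    have hK0 : ∀ j, 0 ≤ hK.1.eigenvalues j := hK.posSemidef.eigenvalues_nonneg
    have esq : cfc (fun k : ℝ => k * k) K = K * K := by
      have hsa : IsSelfAdjoint K := hK.1
      rw [cfc_mul (fun k : ℝ => k) (fun k : ℝ => k) K, cfc_id' ℝ K]
    have eD : ∀ i, e i ^ ((γ - 1) / 2) * e i ^ ((γ - 1) / 2) = e i ^ (γ - 1) := fun i => by
      rw [← Real.rpow_add (he i), add_halves]
    simp only [diagonal_conjTranspose, diagonal_mul_diagonal, diagonal_apply_eq, Pi.star_apply,
      Complex.star_def, Complex.conj_ofReal, ← Complex.ofReal_mul, eD, Complex.ofReal_re,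
      Matrix.trace, Complex.re_sum, Matrix.diag_apply, Matrix.mul_diagonal, Complex.re_mul_ofReal] at h
    have hlhs : ∑ i, e i ^ (γ - 1) * e i = ∑ i, e i ^ γ := Finset.sum_congr rfl fun i _ => by
      rw [← Real.rpow_add_one (he i).ne', sub_add_cancel]
    have hrhs : ∀ i, (((K * K) i i).re) * e i ^ (γ - 1) ≤
        (γ - 1) / γ * e i ^ γ + 1 / γ * (cfc (fun k : ℝ => k ^ (2 * γ)) K i i).re := by
      intro i
      rw [← esq, cfc_diag hK.1, cfc_diag hK.1, Finset.sum_mul, Finset.mul_sum,
        show (γ - 1) / γ * e i ^ γ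
          = ∑ j, Complex.normSq ((hK.1.eigenvectorUnitary : Mat N) i j) * ((γ - 1) / γ * e i ^ γ) by
          rw [← Finset.sum_mul, normSq_eigenvector_row hK.1 i, one_mul],
        ← Finset.sum_add_distrib]
      refine Finset.sum_le_sum fun j _ => ?_
      have hy := young_rpow hg (he i).le (mul_nonneg (hK0 j) (hK0 j))
      rw [Real.mul_rpow (hK0 j) (hK0 j), ← Real.rpow_add_of_nonneg (hK0 j) hγ.le hγ.le,
        ← two_mul] at hy
      have := mul_le_mul_of_nonneg_left hy
        (Complex.normSq_nonneg ((hK.1.eigenvectorUnitary : Mat N) i j))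
      linarith
    have hsum := Finset.sum_le_sum fun i (_ : i ∈ (Finset.univ : Finset (Fin N))) => hrhs i
    rw [Finset.sum_add_distrib, ← Finset.mul_sum, ← Finset.mul_sum] at hsum
    rw [hlhs] at h
    simp only [Matrix.trace, Matrix.diag_apply, Complex.re_sum]
    have e3 : (γ - 1) / γ = 1 - 1 / γ := by field_simp
    rw [e3] at hsum
    have h4 : (1 / γ) * ∑ i, e i ^ γ
        ≤ (1 / γ) * (∑ i, (cfc (fun k : ℝ => k ^ (2 * γ)) K i i).re) + τ := by linarith
    have h5 := mul_le_mul_of_nonneg_left h4 hγ.le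
    rw [mul_add, ← mul_assoc, ← mul_assoc, mul_one_div_cancel hγ.ne', one_mul, one_mul] at h5
    exact h5
  · refine ⟨fun K => cfc (fun k : ℝ => k ^ (γ - 1)) K, ?_, fun K hK τ h => ?_⟩
    · refine ContinuousOn.cfc_of_mem_nhdsSet (s := Ioi (0 : ℝ)) _
        (isOpen_Ioi.mem_nhdsSet.2 (iUnion₂_subset fun K hK y hy => ?_)) continuousOn_id
        (fun K hK => hK.1) fun y hy => (Real.continuousAt_rpow_const y _ (Or.inl (ne_of_gt hy))).continuousWithinAt
      rw [hK.1.spectrum_real_eq_range_eigenvalues] at hy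
      obtain ⟨i, rfl⟩ := hy
      exact hK.eigenvalues_pos i
    have hsa : IsSelfAdjoint K := hK.1
    have hc : ∀ f : ℝ → ℝ, ContinuousOn f (spectrum ℝ K) := fun f =>
      (Matrix.finite_real_spectrum (A := K)).continuousOn f
    have hKe : ∀ j, 0 < hK.1.eigenvalues j := hK.eigenvalues_pos
    set R := cfc (fun k : ℝ => k ^ (γ - 1)) K with hR
    have hRh : Rᴴ = R := (cfc_predicate _ K : IsSelfAdjoint R)
    have hRR : R * R = cfc (fun k : ℝ => k ^ (γ - 1) * k ^ (γ - 1)) K :=
      (cfc_mul _ _ K (hc _) (hc _)).symm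
    have hKK : K * K * (R * R) = cfc (fun k : ℝ => k * k * (k ^ (γ - 1) * k ^ (γ - 1))) K := by
      rw [cfc_mul (fun k : ℝ => k * k) _ K (hc _) (hc _), cfc_mul (fun k : ℝ => k) _ K (hc _) (hc _),
        cfc_id' ℝ K, hRR]
    rw [hRh, hKK, hRR, trace_cfc_re hK.1] at h
    rw [trace_cfc_re hK.1]
    have hpow : ∀ j, hK.1.eigenvalues j * hK.1.eigenvalues j *
        (hK.1.eigenvalues j ^ (γ - 1) * hK.1.eigenvalues j ^ (γ - 1))
          = hK.1.eigenvalues j ^ (2 * γ) := fun j => by
      rw [mul_mul_mul_comm, mul_comm (hK.1.eigenvalues j), ← Real.rpow_add_one (hKe j).ne',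
        ← Real.rpow_add (hKe j)]
      ring_nf
    simp only [hpow] at h
    have hi : ∀ i, e i ^ γ ≤
        γ * ((cfc (fun k : ℝ => k ^ (γ - 1) * k ^ (γ - 1)) K i i).re * e i)
          + (1 - γ) * (cfc (fun k : ℝ => k ^ (2 * γ)) K i i).re := by
      intro i
      rw [cfc_diag hK.1, cfc_diag hK.1, Finset.sum_mul, Finset.mul_sum, Finset.mul_sum,
        show e i ^ γ = ∑ j, Complex.normSq ((hK.1.eigenvectorUnitary : Mat N) i j) * e i ^ γ by
          rw [← Finset.sum_mul, normSq_eigenvector_row hK.1 i, one_mul],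
        ← Finset.sum_add_distrib]
      refine Finset.sum_le_sum fun j _ => ?_
      have hy := young_lt hγ.le hg.le (he i).le (hKe j)
      rw [show 2 * γ - 2 = (γ - 1) + (γ - 1) by ring, Real.rpow_add (hKe j)] at hy
      have := mul_le_mul_of_nonneg_left hy
        (Complex.normSq_nonneg ((hK.1.eigenvectorUnitary : Mat N) i j))
      linarith
    have hsum := Finset.sum_le_sum fun i (_ : i ∈ (Finset.univ : Finset (Fin N))) => hi i
    have etr : ∑ i, (cfc (fun k : ℝ => k ^ (2 * γ)) K i i).re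
        = ∑ j, hK.1.eigenvalues j ^ (2 * γ) := by
      rw [← trace_cfc_re hK.1 (fun k : ℝ => k ^ (2 * γ))]
      simp [Matrix.trace]
    rw [Finset.sum_add_distrib, ← Finset.mul_sum, ← Finset.mul_sum, etr] at hsum
    have := mul_le_mul_of_nonneg_left h hγ.le
    linarith

theorem ltBound_of_pos (hC : CalibStmt) (hS : ShootStmt) {γ : ℝ} (h1 : 1 / 2 < γ) (h2 : γ < 3 / 2)
    (hWp : ∀ x, (W x).PosSemidef) (hW : Continuous W) {a b : ℝ} (hab : a < b)
    (hsupp : ∀ x, x ∉ Ioc a b → W x = 0) {u u' : Fin N → ℝ → EuclideanSpace ℂ (Fin m)}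
    (hu : IsFamily u u') (hd : IsFormDiag W u u') (he : ∀ i, 0 < negEnergy W (u i) (u' i)) :
    ∑ i, negEnergy W (u i) (u' i) ^ γ ≤ calConst γ * ∫ x, trPow (γ + 1 / 2) W x := by
  obtain ⟨C, hCc, hCs⟩ := sum_rpow_le h1 he
  set τ := ∫ x, (W x).trace.re
  set I := ∫ x, trPow (γ + 1 / 2) W x
  set f : ℝ → ℝ := fun δ => calConst γ * ((1 - δ) ^ (1 - (γ + 1 / 2)) * I
    + δ ^ (1 + (γ + 1 / 2)) * N * (b - a)) + γ * (δ * τ)
  have hf : ContinuousAt f 0 := by
    refine (continuousAt_const.mul (ContinuousAt.add (ContinuousAt.mul ?_ continuousAt_const)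
      ((ContinuousAt.mul ?_ continuousAt_const).mul continuousAt_const))).add
      (continuousAt_const.mul (continuousAt_id.mul continuousAt_const))
    · exact ContinuousAt.rpow_const (by fun_prop) (Or.inl (by norm_num))
    · exact Real.continuousAt_rpow_const _ _ (Or.inr (by linarith))
  have hev : ∀ᶠ δ in 𝓝[>] (0 : ℝ), ∑ i, negEnergy W (u i) (u' i) ^ γ ≤ f δ := by
    filter_upwards [Ioo_mem_nhdsGT one_pos] with δ hδ
    obtain ⟨K, hK, hdu, hup⟩ := trial_bound hC hS h1 h2 hWp hW hab hsupp hu hd C hCc hδ.1 hδ.2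
    exact (hCs K hK _ hdu).trans (add_le_add hup le_rfl)
  have hlim := ge_of_tendsto (hf.tendsto.mono_left nhdsWithin_le_nhds) hev
  have hz : (0 : ℝ) ^ (1 + (γ + 1 / 2)) = 0 := Real.zero_rpow (by linarith)
  simpa only [f, hz, sub_zero, Real.one_rpow, one_mul, zero_mul, mul_zero, add_zero] using hlim

end Trial

/-- Trial functions. -/
theorem trial : TrialStmt := by
  intro hC hS γ h1 h2 m W hWp hW hc N u u' hu hd
  obtain ⟨R, hR⟩ := hc.isCompact.isBounded.subset_closedBall 0
  have hsupp : ∀ x, x ∉ Ioc (-(|R| + 1)) (|R| + 1) → W x = 0 := fun x hx => by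
    by_contra h
    have h' := hR (subset_tsupport _ (Function.mem_support.2 h))
    rw [Metric.mem_closedBall, Real.dist_eq, sub_zero] at h'
    have := le_abs_self R
    exact hx ⟨by linarith [neg_abs_le x], by linarith [le_abs_self x]⟩
  set s := Finset.univ.filter fun i => 0 < negEnergy W (u i) (u' i) with hs
  set f : Fin s.card → Fin N := fun j => (s.equivFin.symm j).1 with hfdef
  have hf : Function.Injective f := Subtype.val_injective.comp s.equivFin.symm.injective
  have h := Trial.ltBound_of_pos hC hS h1 h2 hWp hW (a := -(|R| + 1)) (b := |R| + 1)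
    (by linarith [abs_nonneg R]) hsupp (u := fun j => u (f j)) (u' := fun j => u' (f j))
    ⟨fun j x => hu.1 (f j) x, fun j => hu.2.1 (f j), fun j => hu.2.2.1 (f j),
      fun j => hu.2.2.2.1 (f j), fun i j => by rw [hu.2.2.2.2]; simp [hf.eq_iff]⟩
    (fun i j hij => hd (f i) (f j) (hf.ne hij)) (fun j => (Finset.mem_filter.1 (s.equivFin.symm j).2).2)
  refine le_of_eq_of_le ?_ h
  have e1 : ∑ i, max (negEnergy W (u i) (u' i)) 0 ^ γ = ∑ i ∈ s, negEnergy W (u i) (u' i) ^ γ := by
    rw [hs, Finset.sum_filter]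
    refine Finset.sum_congr rfl fun i _ => ?_
    split_ifs with hi
    · rw [max_eq_left hi.le]
    · rw [max_eq_right (not_lt.1 hi), Real.zero_rpow (by linarith)]
  rw [e1, ← Finset.sum_coe_sort]
  exact (Equiv.sum_comp s.equivFin.symm
    fun i : s => negEnergy W (u i.1) (u' i.1) ^ γ).symm

end Vale.Agent.P371.Gamma
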